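import Vale.Agent.H7.P047.Defs

set_option linter.unusedSectionVars false

namespace Vale.Agent.H7.P047

open Finset

variable {ι κ : Type} [Fintype ι] [DecidableEq ι] [Fintype κ] [DecidableEq κ]

lemma sg_one : sg 1 = 1 := by simp [sg]
lemma sg_neg_one : sg (-1) = -1 := by simp [sg]
lemma sg_mul (a b : ℤˣ) : sg (a * b) = sg a * sg b := by simp [sg]
lemma sg_neg (a : ℤˣ) : sg (-a) = - sg a := by simp [sg]
lemma sg_cases (a : ℤˣ) : sg a = 1 ∨ sg a = -1 := by
  rcases Int.units_eq_one_or a with h | h <;> simp [h, sg]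
lemma sg_sq (a : ℤˣ) : sg a * sg a = 1 := by
  rcases sg_cases a with h | h <;> rw [h] <;> norm_num

/-- signs from reals -/
noncomputable def toU (r : ℝ) : ℤˣ := if r = 1 then 1 else -1

lemma sg_toU {r : ℝ} (h : r = 1 ∨ r = -1) : sg (toU r) = r := by
  rcases h with h | h
  · simp [toU, h, sg]
  · have : ¬ ((-1 : ℝ) = 1) := by norm_num
    simp [toU, h, sg, this]

lemma univ_units : (univ : Finset ℤˣ) = {1, -1} := by decide

lemma sum_units (g : ℤˣ → ℝ) : ∑ u, g u = g 1 + g (-1) := by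
  rw [univ_units, Finset.sum_pair (by decide)]

/-- characters -/
def chi (S : Finset ι) (x : ι → ℤˣ) : ℝ := ∏ i ∈ S, sg (x i)

/-- expectation -/
noncomputable def E (f : (ι → ℤˣ) → ℝ) : ℝ := (∑ x, f x) / 2 ^ Fintype.card ι

lemma fhat_eq (f : (ι → ℤˣ) → ℝ) (S : Finset ι) : fhat f S = E (fun x => f x * chi S x) := rfl

lemma E_add (f g : (ι → ℤˣ) → ℝ) : E (fun x => f x + g x) = E f + E g := by
  simp [E, sum_add_distrib, add_div]

lemma E_smul (c : ℝ) (f : (ι → ℤˣ) → ℝ) : E (fun x => c * f x) = c * E f := by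
  simp [E, ← mul_sum, mul_div_assoc]

lemma E_sum {α : Type*} (s : Finset α) (f : α → (ι → ℤˣ) → ℝ) :
    E (fun x => ∑ a ∈ s, f a x) = ∑ a ∈ s, E (f a) := by
  simp only [E]
  rw [Finset.sum_comm, Finset.sum_div]

lemma E_mono {f g : (ι → ℤˣ) → ℝ} (h : ∀ x, f x ≤ g x) : E f ≤ E g := by
  unfold E
  exact div_le_div_of_nonneg_right (Finset.sum_le_sum fun x _ => h x) (by positivity)

lemma card_cube : (Fintype.card (ι → ℤˣ) : ℝ) = 2 ^ Fintype.card ι := by
  simp [Fintype.card_pi]

lemma E_const (c : ℝ) : E (fun _ : ι → ℤˣ => c) = c := by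
  unfold E
  rw [Finset.sum_const, Finset.card_univ, nsmul_eq_mul, card_cube]
  field_simp

/-- independence of coordinates -/
lemma sum_prod_coord (g : ι → ℤˣ → ℝ) :
    ∑ x : ι → ℤˣ, ∏ i, g i (x i) = ∏ i, (g i 1 + g i (-1)) := by
  have := Finset.prod_univ_sum (fun _ : ι => (univ : Finset ℤˣ)) g
  rw [Fintype.piFinset_univ] at this
  rw [← this]
  exact Finset.prod_congr rfl fun i _ => sum_units _

lemma E_prod_coord (g : ι → ℤˣ → ℝ) :
    E (fun x => ∏ i, g i (x i)) = ∏ i, ((g i 1 + g i (-1)) / 2) := by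
  unfold E
  rw [sum_prod_coord, Finset.prod_div_distrib]
  simp

lemma chi_eq_prod (S : Finset ι) (x : ι → ℤˣ) :
    chi S x = ∏ i, (if i ∈ S then sg (x i) else 1) := by
  simp [chi, Finset.prod_ite_mem]

lemma E_chi (S : Finset ι) : E (chi S) = if S = ∅ then 1 else 0 := by
  have h : E (chi S) = ∏ i, (if i ∈ S then (0:ℝ) else 1) := by
    have h1 : chi S = fun x => ∏ i, (if i ∈ S then sg (x i) else 1) := by
      funext x; exact chi_eq_prod S x
    have h2 := E_prod_coord (fun (i : ι) (u : ℤˣ) => if i ∈ S then sg u else 1)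
    rw [h1]
    refine h2.trans (Finset.prod_congr rfl fun i _ => ?_)
    by_cases hi : i ∈ S <;> simp [hi, sg_one, sg_neg_one]
  rw [h]
  by_cases hS : S = ∅
  · simp [hS]
  · rw [if_neg hS]
    obtain ⟨i, hi⟩ := Finset.nonempty_iff_ne_empty.mpr hS
    exact Finset.prod_eq_zero (Finset.mem_univ i) (by simp [hi])

lemma chi_mul (S T : Finset ι) (x : ι → ℤˣ) : chi S x * chi T x = chi (symmDiff S T) x := by
  rw [chi_eq_prod, chi_eq_prod, chi_eq_prod, ← Finset.prod_mul_distrib]
  refine Finset.prod_congr rfl fun i _ => ?_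
  by_cases h1 : i ∈ S <;> by_cases h2 : i ∈ T <;> simp [h1, h2, Finset.mem_symmDiff, sg_sq]

lemma chi_empty (x : ι → ℤˣ) : chi ∅ x = 1 := by simp [chi]
lemma chi_single (i : ι) (x : ι → ℤˣ) : chi {i} x = sg (x i) := by simp [chi]

lemma E_chi_chi (S T : Finset ι) :
    E (fun x => chi S x * chi T x) = if S = T then 1 else 0 := by
  have : (fun x : ι → ℤˣ => chi S x * chi T x) = chi (symmDiff S T) := by
    funext x; exact chi_mul S T x
  rw [this, E_chi]
  by_cases h : S = T
  · subst h; simp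
  · have : symmDiff S T ≠ ∅ := by
      intro h2; exact h (symmDiff_eq_bot.mp h2)
    rw [if_neg h, if_neg this]

/-- kernel identity: `∑_S χ_S(x) χ_S(y)`. -/
lemma sum_chi_chi (x y : ι → ℤˣ) :
    ∑ S : Finset ι, chi S x * chi S y = if x = y then (2:ℝ) ^ Fintype.card ι else 0 := by
  have h : ∑ S : Finset ι, chi S x * chi S y = ∏ i, (sg (x i) * sg (y i) + 1) := by
    rw [Finset.prod_add_one]
    simp only [Finset.powerset_univ, chi, Finset.prod_mul_distrib]
  rw [h]
  by_cases hxy : x = y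
  · subst hxy
    simp only [sg_sq, if_true]
    norm_num
  · rw [if_neg hxy]
    obtain ⟨i, hi⟩ := Function.ne_iff.mp hxy
    refine Finset.prod_eq_zero (Finset.mem_univ i) ?_
    rcases Int.units_eq_one_or (x i) with h1 | h1 <;>
    rcases Int.units_eq_one_or (y i) with h2 | h2
    · exact absurd (h1.trans h2.symm) hi
    · simp [h1, h2, sg]
    · simp [h1, h2, sg]
    · exact absurd (h1.trans h2.symm) hi

/-- Fourier inversion. -/
lemma expand (f : (ι → ℤˣ) → ℝ) (x : ι → ℤˣ) : f x = ∑ S : Finset ι, fhat f S * chi S x := by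
  have h : ∑ S : Finset ι, fhat f S * chi S x
      = (∑ y : ι → ℤˣ, f y * ∑ S : Finset ι, chi S y * chi S x) / 2 ^ Fintype.card ι := by
    simp only [fhat_eq, E]
    simp only [div_mul_eq_mul_div, ← Finset.sum_div, Finset.sum_mul, Finset.mul_sum]
    congr 1
    rw [Finset.sum_comm]
    refine Finset.sum_congr rfl fun y _ => Finset.sum_congr rfl fun S _ => by ring
  rw [h]
  simp only [sum_chi_chi]
  simp

/-- All Fourier coefficients above level `k` vanish. -/
def DegLE (f : (ι → ℤˣ) → ℝ) (k : ℕ) : Prop := ∀ S : Finset ι, k < S.card → fhat f S = 0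

lemma degLE_iff (f : (ι → ℤˣ) → ℝ) (k : ℕ) : DegLE f k ↔ deg f ≤ k := by
  classical
  unfold deg
  rw [Finset.sup_le_iff]
  constructor
  · intro h S hS
    simp only [Finset.mem_filter, Finset.mem_univ, true_and] at hS
    by_contra hc
    exact hS (h S (not_le.mp hc))
  · intro h S hS
    by_contra hc
    have := h S (by simp [hc])
    omega

lemma DegLE.mono {f : (ι → ℤˣ) → ℝ} {k l : ℕ} (h : DegLE f k) (hkl : k ≤ l) : DegLE f l :=
  fun S hS => h S (lt_of_le_of_lt hkl hS)

lemma fhat_add (f g : (ι → ℤˣ) → ℝ) (S : Finset ι) :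
    fhat (fun x => f x + g x) S = fhat f S + fhat g S := by
  simp only [fhat_eq, ← E_add]; congr 1; funext x; ring

lemma fhat_smul (c : ℝ) (f : (ι → ℤˣ) → ℝ) (S : Finset ι) :
    fhat (fun x => c * f x) S = c * fhat f S := by
  simp only [fhat_eq, ← E_smul]; congr 1; funext x; ring

lemma fhat_sum {α : Type*} (s : Finset α) (f : α → (ι → ℤˣ) → ℝ) (S : Finset ι) :
    fhat (fun x => ∑ a ∈ s, f a x) S = ∑ a ∈ s, fhat (f a) S := by
  simp only [fhat_eq, ← E_sum]; congr 1; funext x; rw [Finset.sum_mul]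

lemma fhat_chi (S T : Finset ι) : fhat (chi S) T = if S = T then 1 else 0 := by
  rw [fhat_eq]; exact E_chi_chi S T

lemma DegLE.add {f g : (ι → ℤˣ) → ℝ} {k : ℕ} (hf : DegLE f k) (hg : DegLE g k) :
    DegLE (fun x => f x + g x) k := by
  intro S hS; rw [fhat_add, hf S hS, hg S hS, add_zero]

lemma DegLE.smul {f : (ι → ℤˣ) → ℝ} {k : ℕ} (c : ℝ) (hf : DegLE f k) :
    DegLE (fun x => c * f x) k := by
  intro S hS; rw [fhat_smul, hf S hS, mul_zero]

lemma DegLE.sum {α : Type*} {s : Finset α} {f : α → (ι → ℤˣ) → ℝ} {k : ℕ}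
    (h : ∀ a ∈ s, DegLE (f a) k) : DegLE (fun x => ∑ a ∈ s, f a x) k := by
  intro S hS; rw [fhat_sum]; exact Finset.sum_eq_zero fun a ha => h a ha S hS

lemma degLE_chi (S : Finset ι) : DegLE (chi S) S.card := by
  intro T hT
  rw [fhat_chi, if_neg]
  rintro rfl; exact lt_irrefl _ hT

lemma degLE_const (c : ℝ) : DegLE (fun _ : ι → ℤˣ => c) 0 := by
  have : (fun _ : ι → ℤˣ => c) = fun x => c * chi ∅ x := by funext x; simp [chi_empty]
  rw [this]; exact (degLE_chi (∅ : Finset ι)).smul c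

lemma DegLE.mul {f g : (ι → ℤˣ) → ℝ} {a b : ℕ} (hf : DegLE f a) (hg : DegLE g b) :
    DegLE (fun x => f x * g x) (a + b) := by
  have h : (fun x => f x * g x) = fun x => ∑ S : Finset ι, ∑ T : Finset ι,
      (fhat f S * fhat g T) * chi (symmDiff S T) x := by
    funext x
    conv_lhs => rw [expand f x, expand g x]
    rw [Finset.sum_mul_sum]
    refine Finset.sum_congr rfl fun S _ => Finset.sum_congr rfl fun T _ => ?_
    rw [← chi_mul]; ring
  rw [h]
  refine DegLE.sum fun S _ => DegLE.sum fun T _ => ?_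
  by_cases hS : a < S.card
  · intro U _; rw [fhat_smul, hf S hS]; ring
  by_cases hT : b < T.card
  · intro U _; rw [fhat_smul, hg T hT]; ring
  refine DegLE.smul _ ((degLE_chi _).mono ?_)
  have : (symmDiff S T).card ≤ S.card + T.card := by
    refine le_trans (Finset.card_le_card (?_ : symmDiff S T ⊆ S ∪ T)) (Finset.card_union_le _ _)
    intro i hi
    rw [Finset.mem_symmDiff] at hi
    rw [Finset.mem_union]
    tauto
  omega

lemma DegLE.prod {α : Type*} [DecidableEq α] (s : Finset α) (f : α → (ι → ℤˣ) → ℝ) (k : ℕ)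
    (h : ∀ a ∈ s, DegLE (f a) k) : DegLE (fun x => ∏ a ∈ s, f a x) (s.card * k) := by
  induction s using Finset.induction_on with
  | empty => simpa using degLE_const (ι := ι) 1
  | insert a s ha ih =>
    have h1 := (h a (Finset.mem_insert_self _ _)).mul
      (ih fun b hb => h b (Finset.mem_insert_of_mem hb))
    have h2 : (fun x => ∏ b ∈ insert a s, f b x) = fun x => f a x * ∏ b ∈ s, f b x := by
      funext x; rw [Finset.prod_insert ha]
    rw [h2, Finset.card_insert_of_notMem ha]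
    exact h1.mono (by ring_nf; omega)

/-- Parseval. -/
lemma parseval (f g : (ι → ℤˣ) → ℝ) :
    E (fun x => f x * g x) = ∑ S : Finset ι, fhat f S * fhat g S := by
  have h : (fun x => f x * g x) = fun x => ∑ S : Finset ι, fhat g S * (f x * chi S x) := by
    funext x
    conv_lhs => rw [expand g x]
    rw [Finset.mul_sum]
    refine Finset.sum_congr rfl fun S _ => by ring
  rw [h, E_sum]
  refine Finset.sum_congr rfl fun S _ => ?_
  rw [E_smul, ← fhat_eq]; ring

end Vale.Agent.H7.P047
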