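import Vale.Agent.H7.P047.Basic

set_option linter.unusedSectionVars false

namespace Vale.Agent.H7.P047

open Finset

variable {ι κ : Type} [Fintype ι] [DecidableEq ι] [Fintype κ] [DecidableEq κ]

/-! ### Composition -/

/-- the `i`-th row of a point indexed by `ι × κ` -/
def row (i : ι) (x : ι × κ → ℤˣ) : κ → ℤˣ := fun k => x (i, k)

/-- `f(F(x_1), ..., F(x_m))` on disjoint blocks of variables. -/
noncomputable def comp (f : (ι → ℤˣ) → ℝ) (F : (κ → ℤˣ) → ℝ) : (ι × κ → ℤˣ) → ℝ :=
  fun x => f fun i => toU (F (row i x))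

lemma isBool_comp {f : (ι → ℤˣ) → ℝ} {F : (κ → ℤˣ) → ℝ} (hf : IsBool f) : IsBool (comp f F) :=
  fun _ => hf _

lemma comp_expand {f : (ι → ℤˣ) → ℝ} {F : (κ → ℤˣ) → ℝ} (hF : IsBool F) (x : ι × κ → ℤˣ) :
    comp f F x = ∑ S : Finset ι, fhat f S * ∏ i ∈ S, F (row i x) := by
  unfold comp
  rw [expand f]
  refine Finset.sum_congr rfl fun S _ => ?_
  congr 1
  unfold chi
  exact Finset.prod_congr rfl fun i _ => sg_toU (hF _)

lemma chi_row (i : ι) (T : Finset κ) (x : ι × κ → ℤˣ) :
    chi T (row i x) = chi (T.map ⟨fun k => (i, k), fun a b h => (Prod.mk.inj h).2⟩) x := by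
  unfold chi row
  rw [Finset.prod_map]
  rfl

lemma degLE_row {F : (κ → ℤˣ) → ℝ} {b : ℕ} (hF : DegLE F b) (i : ι) :
    DegLE (fun x : ι × κ → ℤˣ => F (row i x)) b := by
  have h : (fun x : ι × κ → ℤˣ => F (row i x)) = fun x => ∑ T : Finset κ,
      fhat F T * chi (T.map ⟨fun k => (i, k), fun a b h => (Prod.mk.inj h).2⟩) x := by
    funext x
    rw [expand F]
    exact Finset.sum_congr rfl fun T _ => by rw [chi_row]
  rw [h]
  refine DegLE.sum fun T _ => ?_
  by_cases hT : b < T.card
  · intro U _; rw [fhat_smul, hF T hT, zero_mul]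
  · refine DegLE.smul _ ((degLE_chi _).mono ?_)
    rw [Finset.card_map]; omega

lemma degLE_comp {f : (ι → ℤˣ) → ℝ} {F : (κ → ℤˣ) → ℝ} {a b : ℕ} (hB : IsBool F)
    (hf : DegLE f a) (hF : DegLE F b) : DegLE (comp f F) (a * b) := by
  have h : comp f F = fun x => ∑ S : Finset ι, fhat f S * ∏ i ∈ S, F (row i x) := by
    funext x; exact comp_expand hB x
  rw [h]
  refine DegLE.sum fun S _ => ?_
  by_cases hS : a < S.card
  · intro U _; rw [fhat_smul, hf S hS, zero_mul]
  · refine DegLE.smul _ ((DegLE.prod S (fun i x => F (row i x)) b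
      fun i _ => degLE_row hF i).mono ?_)
    exact Nat.mul_le_mul_right _ (not_lt.mp hS)

/-- independence of rows -/
lemma E_prod_row (g : ι → (κ → ℤˣ) → ℝ) :
    E (fun x : ι × κ → ℤˣ => ∏ j, g j (row j x)) = ∏ j, E (g j) := by
  unfold E
  have h1 : ∑ x : ι × κ → ℤˣ, ∏ j, g j (row j x) = ∑ y : ι → κ → ℤˣ, ∏ j, g j (y j) := by
    refine Fintype.sum_equiv (Equiv.curry ι κ ℤˣ) _ _ fun x => ?_
    rfl
  have h2 := Finset.prod_univ_sum (fun _ : ι => (univ : Finset (κ → ℤˣ))) g
  rw [Fintype.piFinset_univ] at h2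
  rw [h1, ← h2, Finset.prod_div_distrib, Finset.prod_const, Finset.card_univ, ← pow_mul,
    Fintype.card_prod, mul_comm (Fintype.card κ)]

lemma fhat_empty (f : (ι → ℤˣ) → ℝ) : fhat f ∅ = E f := by
  rw [fhat_eq]; congr 1; funext x; rw [chi_empty, mul_one]

lemma fhat_comp_single {f : (ι → ℤˣ) → ℝ} {F : (κ → ℤˣ) → ℝ} (hB : IsBool F) (h0 : E F = 0)
    (i : ι) (k : κ) : fhat (comp f F) {(i, k)} = fhat f {i} * fhat F {k} := by
  have h : comp f F = fun x => ∑ S : Finset ι, fhat f S * ∏ i ∈ S, F (row i x) := by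
    funext x; exact comp_expand hB x
  rw [h, fhat_sum]
  have key : ∀ S : Finset ι, fhat (fun x : ι × κ → ℤˣ => ∏ j ∈ S, F (row j x)) {(i, k)}
      = if S = {i} then fhat F {k} else 0 := by
    intro S
    rw [fhat_eq]
    have h1 : (fun x : ι × κ → ℤˣ => (∏ j ∈ S, F (row j x)) * chi {(i, k)} x)
        = fun x => ∏ j, ((if j ∈ S then F (row j x) else 1) *
            (if j = i then sg ((row j x) k) else 1)) := by
      funext x
      rw [Finset.prod_mul_distrib, chi_single]
      congr 1
      · simp [Finset.prod_ite_mem]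
      · simp [Finset.prod_ite_eq', row]
    have h1' := E_prod_row (fun (j : ι) (y : κ → ℤˣ) =>
            (if j ∈ S then F y else 1) * (if j = i then sg (y k) else 1))
    rw [h1]
    refine h1'.trans ?_
    by_cases hS : S = {i}
    · subst hS
      rw [if_pos rfl, Finset.prod_eq_single i]
      · simp only [Finset.mem_singleton, if_true]
        rw [fhat_eq]
        congr 1
        funext y; rw [chi_single]
      · intro j _ hj
        have : j ∉ ({i} : Finset ι) := by simpa using hj
        simp only [this, hj, if_false, mul_one]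
        exact E_const 1
      · intro hi; exact absurd (Finset.mem_univ i) hi
    · rw [if_neg hS]
      by_cases hex : ∃ j ∈ S, j ≠ i
      · obtain ⟨j, hj, hji⟩ := hex
        refine Finset.prod_eq_zero (Finset.mem_univ j) ?_
        simp only [hj, hji, if_true, if_false, mul_one]
        exact h0
      · push Not at hex
        have hi : i ∉ S := by
          intro hi
          apply hS
          ext j
          simp only [Finset.mem_singleton]
          exact ⟨fun hj => hex j hj, fun hj => hj ▸ hi⟩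
        refine Finset.prod_eq_zero (Finset.mem_univ i) ?_
        simp only [hi, if_true, if_false, one_mul]
        have : (fun y : κ → ℤˣ => sg (y k)) = chi {k} := by funext y; rw [chi_single]
        rw [this, E_chi, if_neg (Finset.singleton_ne_empty k)]
  rw [Finset.sum_congr rfl fun S _ => by rw [fhat_smul, key S]]
  simp

lemma lin_comp {f : (ι → ℤˣ) → ℝ} {F : (κ → ℤˣ) → ℝ} (hB : IsBool F) (h0 : E F = 0) :
    lin (comp f F) = lin f * lin F := by
  unfold lin
  rw [Fintype.sum_prod_type, Finset.sum_mul_sum]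
  exact Finset.sum_congr rfl fun i _ => Finset.sum_congr rfl fun k _ =>
    fhat_comp_single hB h0 i k

/-! ### Making a function odd with one more variable -/

/-- `h(z, x) = z g(z x)`. -/
noncomputable def odd (g : (ι → ℤˣ) → ℝ) : (Option ι → ℤˣ) → ℝ :=
  fun x => sg (x none) * g fun i => x none * x (some i)

lemma isBool_odd {g : (ι → ℤˣ) → ℝ} (hg : IsBool g) : IsBool (odd g) := by
  intro x
  unfold odd
  rcases hg (fun i => x none * x (some i)) with h | h <;> rcases sg_cases (x none) with h' | h' <;>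
  rw [h, h'] <;> norm_num

/-- the support map -/
def tau (S : Finset ι) : Finset (Option ι) :=
  if Even S.card then insert none (S.map Function.Embedding.some) else S.map Function.Embedding.some

lemma card_tau (S : Finset ι) : (tau S).card ≤ S.card + 1 := by
  unfold tau
  split_ifs
  · exact (Finset.card_insert_le _ _).trans (by rw [Finset.card_map])
  · rw [Finset.card_map]; omega

lemma some_mem_tau (S : Finset ι) (i : ι) : some i ∈ tau S ↔ i ∈ S := by
  unfold tau
  split_ifs <;> simp

lemma tau_injective : Function.Injective (tau : Finset ι → Finset (Option ι)) := by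
  intro S T h
  ext i
  rw [← some_mem_tau S i, h, some_mem_tau]

lemma chi_scale (z : ℤˣ) (S : Finset ι) (x : ι → ℤˣ) :
    chi S (fun i => z * x i) = sg z ^ S.card * chi S x := by
  unfold chi
  simp only [sg_mul, Finset.prod_mul_distrib, Finset.prod_const]

lemma sg_pow_even {z : ℤˣ} {n : ℕ} (h : Even n) : sg z ^ n = 1 := by
  obtain ⟨m, rfl⟩ := h
  rw [← two_mul, pow_mul, pow_two, sg_sq, one_pow]

lemma chi_tau (S : Finset ι) (x : Option ι → ℤˣ) :
    sg (x none) * (sg (x none) ^ S.card * chi S (fun i => x (some i))) = chi (tau S) x := by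
  have h1 : chi S (fun i => x (some i)) = chi (S.map Function.Embedding.some) x := by
    simp [chi]
  rw [h1]
  unfold tau
  split_ifs with h
  · rw [sg_pow_even h, one_mul]
    unfold chi
    rw [Finset.prod_insert (by simp)]
  · rw [← mul_assoc, ← pow_succ', sg_pow_even (by
      rw [Nat.even_add_one]; exact h), one_mul]

lemma odd_expand (g : (ι → ℤˣ) → ℝ) (x : Option ι → ℤˣ) :
    odd g x = ∑ S : Finset ι, fhat g S * chi (tau S) x := by
  unfold odd
  rw [expand g, Finset.mul_sum]
  refine Finset.sum_congr rfl fun S _ => ?_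
  rw [chi_scale, ← chi_tau]; ring

lemma fhat_odd (g : (ι → ℤˣ) → ℝ) (U : Finset (Option ι)) :
    fhat (odd g) U = ∑ S : Finset ι, if tau S = U then fhat g S else 0 := by
  have h : odd g = fun x => ∑ S : Finset ι, fhat g S * chi (tau S) x := by
    funext x; exact odd_expand g x
  rw [h, fhat_sum]
  refine Finset.sum_congr rfl fun S _ => ?_
  rw [fhat_smul, fhat_chi]
  split_ifs <;> simp

lemma fhat_odd_tau (g : (ι → ℤˣ) → ℝ) (S : Finset ι) : fhat (odd g) (tau S) = fhat g S := by
  rw [fhat_odd, Finset.sum_eq_single S]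
  · simp
  · intro T _ hT
    rw [if_neg fun h => hT (tau_injective h)]
  · intro h; exact absurd (Finset.mem_univ S) h

lemma degLE_odd {g : (ι → ℤˣ) → ℝ} {d : ℕ} (hg : DegLE g d) : DegLE (odd g) (d + 1) := by
  intro U hU
  rw [fhat_odd]
  refine Finset.sum_eq_zero fun S _ => ?_
  split_ifs with h
  · refine hg S ?_
    have := card_tau S
    rw [h] at this; omega
  · rfl

lemma E_odd (g : (ι → ℤˣ) → ℝ) : E (odd g) = 0 := by
  rw [← fhat_empty, fhat_odd]
  refine Finset.sum_eq_zero fun S _ => ?_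
  rw [if_neg]
  intro h
  unfold tau at h
  split_ifs at h with h1
  · exact absurd h (Finset.insert_ne_empty _ _)
  · rw [Finset.map_eq_empty] at h
    subst h
    simp at h1

lemma lin_odd (g : (ι → ℤˣ) → ℝ) : lin (odd g) = lin g + E g := by
  unfold lin
  rw [Fintype.sum_option, add_comm, ← fhat_empty]
  congr 1
  · refine Finset.sum_congr rfl fun i _ => ?_
    have : ({some i} : Finset (Option ι)) = tau {i} := by simp [tau]
    rw [this, fhat_odd_tau]
  · have : ({none} : Finset (Option ι)) = tau ∅ := by simp [tau]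
    rw [this, fhat_odd_tau]

/-- `-g(-x)` -/
noncomputable def dual (g : (ι → ℤˣ) → ℝ) : (ι → ℤˣ) → ℝ := fun x => - g (fun i => - x i)

lemma isBool_dual {g : (ι → ℤˣ) → ℝ} (hg : IsBool g) : IsBool (dual g) := by
  intro x
  unfold dual
  rcases hg (fun i => - x i) with h | h <;> rw [h] <;> norm_num

lemma dual_expand (g : (ι → ℤˣ) → ℝ) (x : ι → ℤˣ) :
    dual g x = ∑ S : Finset ι, (-(fhat g S * (-1) ^ S.card)) * chi S x := by
  unfold dual
  rw [expand g, ← Finset.sum_neg_distrib]
  refine Finset.sum_congr rfl fun S _ => ?_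
  have : (fun i => - x i) = fun i => (-1) * x i := by funext i; simp
  rw [this, chi_scale, sg_neg_one]; ring

lemma fhat_dual (g : (ι → ℤˣ) → ℝ) (S : Finset ι) :
    fhat (dual g) S = -(fhat g S * (-1) ^ S.card) := by
  have h : dual g = fun x => ∑ S : Finset ι, (-(fhat g S * (-1) ^ S.card)) * chi S x := by
    funext x; exact dual_expand g x
  rw [h, fhat_sum, Finset.sum_eq_single S]
  · rw [fhat_smul, fhat_chi, if_pos rfl, mul_one]
  · intro T _ hT
    rw [fhat_smul, fhat_chi, if_neg hT, mul_zero]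
  · intro h; exact absurd (Finset.mem_univ S) h

lemma degLE_dual {g : (ι → ℤˣ) → ℝ} {d : ℕ} (hg : DegLE g d) : DegLE (dual g) d := by
  intro S hS; rw [fhat_dual, hg S hS]; simp

lemma lin_dual (g : (ι → ℤˣ) → ℝ) : lin (dual g) = lin g := by
  unfold lin
  exact Finset.sum_congr rfl fun i _ => by rw [fhat_dual]; simp

lemma E_dual (g : (ι → ℤˣ) → ℝ) : E (dual g) = - E g := by
  rw [← fhat_empty, fhat_dual, fhat_empty]; simp

/-- Balancing: there is a balanced Boolean function of degree at most `d+1`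
whose linear sum is at least that of `g`. -/
lemma exists_balanced {g : (ι → ℤˣ) → ℝ} {d : ℕ} (hB : IsBool g) (hg : DegLE g d) :
    ∃ h : (Option ι → ℤˣ) → ℝ, IsBool h ∧ E h = 0 ∧ DegLE h (d + 1) ∧ lin g ≤ lin h := by
  rcases le_total 0 (E g) with h0 | h0
  · exact ⟨odd g, isBool_odd hB, E_odd g, degLE_odd hg, by rw [lin_odd]; linarith⟩
  · exact ⟨odd (dual g), isBool_odd (isBool_dual hB), E_odd _, degLE_odd (degLE_dual hg), by
      rw [lin_odd, lin_dual, E_dual]; linarith⟩

/-! ### The bound `lin f ≤ deg f` -/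

/-- flip coordinate `i` -/
def flip (i : ι) (x : ι → ℤˣ) : ι → ℤˣ := Function.update x i (- x i)

lemma chi_flip (i : ι) (S : Finset ι) (x : ι → ℤˣ) :
    chi S (flip i x) = if i ∈ S then - chi S x else chi S x := by
  unfold chi flip
  split_ifs with h
  · rw [← Finset.mul_prod_erase _ _ h, ← Finset.mul_prod_erase S (fun i => sg (x i)) h]
    rw [Function.update_self, sg_neg, neg_mul]
    congr 2
    refine Finset.prod_congr rfl fun j hj => ?_
    rw [Function.update_of_ne (Finset.ne_of_mem_erase hj)]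
  · refine Finset.prod_congr rfl fun j hj => ?_
    rw [Function.update_of_ne]
    rintro rfl; exact h hj

/-- derivative-like part -/
noncomputable def dpart (i : ι) (f : (ι → ℤˣ) → ℝ) : (ι → ℤˣ) → ℝ :=
  fun x => (f x - f (flip i x)) / 2

lemma dpart_expand (i : ι) (f : (ι → ℤˣ) → ℝ) (x : ι → ℤˣ) :
    dpart i f x = ∑ S : Finset ι, (if i ∈ S then fhat f S else 0) * chi S x := by
  unfold dpart
  rw [expand f x, expand f (flip i x), ← Finset.sum_sub_distrib, Finset.sum_div]
  refine Finset.sum_congr rfl fun S _ => ?_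
  rw [chi_flip]
  split_ifs <;> ring

lemma fhat_dpart (i : ι) (f : (ι → ℤˣ) → ℝ) (S : Finset ι) :
    fhat (dpart i f) S = if i ∈ S then fhat f S else 0 := by
  have h : dpart i f = fun x => ∑ S : Finset ι, (if i ∈ S then fhat f S else 0) * chi S x := by
    funext x; exact dpart_expand i f x
  rw [h, fhat_sum, Finset.sum_eq_single S]
  · rw [fhat_smul, fhat_chi, if_pos rfl, mul_one]
  · intro T _ hT
    rw [fhat_smul, fhat_chi, if_neg hT, mul_zero]
  · intro h; exact absurd (Finset.mem_univ S) h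

lemma fhat_single_le {f : (ι → ℤˣ) → ℝ} (hB : IsBool f) (i : ι) :
    fhat f {i} ≤ ∑ S : Finset ι, if i ∈ S then fhat f S ^ 2 else 0 := by
  have h1 : fhat f {i} = E (fun x => dpart i f x * sg (x i)) := by
    have := fhat_dpart i f {i}
    rw [if_pos (Finset.mem_singleton_self i)] at this
    rw [← this, fhat_eq]
    congr 1; funext x; rw [chi_single]
  have h2 : E (fun x => dpart i f x * sg (x i)) ≤ E (fun x => dpart i f x * dpart i f x) := by
    refine E_mono fun x => ?_
    unfold dpart
    rcases hB x with h | h <;> rcases hB (flip i x) with h' | h' <;>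
    rcases sg_cases (x i) with h'' | h'' <;> rw [h, h', h''] <;> norm_num
  rw [h1]
  refine h2.trans (le_of_eq ?_)
  rw [parseval]
  refine Finset.sum_congr rfl fun S _ => ?_
  rw [fhat_dpart]
  split_ifs <;> ring

lemma lin_le_of_degLE {f : (ι → ℤˣ) → ℝ} {d : ℕ} (hB : IsBool f) (hd : DegLE f d) :
    lin f ≤ d := by
  have h1 : lin f ≤ ∑ i, ∑ S : Finset ι, if i ∈ S then fhat f S ^ 2 else 0 :=
    Finset.sum_le_sum fun i _ => fhat_single_le hB i
  rw [Finset.sum_comm] at h1
  have h2 : ∀ S : Finset ι, (∑ i, if i ∈ S then fhat f S ^ 2 else 0) ≤ d * (fhat f S * fhat f S) := by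
    intro S
    rw [Finset.sum_ite_mem, Finset.univ_inter, Finset.sum_const, nsmul_eq_mul]
    by_cases hS : d < S.card
    · rw [hd S hS]; simp
    · rw [pow_two]
      refine mul_le_mul_of_nonneg_right ?_ (mul_self_nonneg _)
      exact_mod_cast not_lt.mp hS
  refine h1.trans ((Finset.sum_le_sum fun S _ => h2 S).trans ?_)
  rw [← Finset.mul_sum, ← parseval]
  have h3 : (fun x => f x * f x) = fun _ => (1:ℝ) := by
    funext x
    rcases hB x with h | h <;> rw [h] <;> norm_num
  rw [h3, E_const, mul_one]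

/-! ### Reindexing -/

lemma fhat_reindex (e : ι ≃ κ) (f : (ι → ℤˣ) → ℝ) (S : Finset ι) :
    fhat (fun x : κ → ℤˣ => f (x ∘ e)) (S.map e.toEmbedding) = fhat f S := by
  unfold fhat
  rw [Fintype.card_congr e]
  congr 1
  refine Fintype.sum_equiv (Equiv.arrowCongr e.symm (Equiv.refl ℤˣ)) _ _ fun x => ?_
  have h : (Equiv.arrowCongr e.symm (Equiv.refl ℤˣ)) x = x ∘ e := by
    funext i; simp [Equiv.arrowCongr]
  rw [h, Finset.prod_map]
  rfl

lemma lin_reindex (e : ι ≃ κ) (f : (ι → ℤˣ) → ℝ) :
    lin (fun x : κ → ℤˣ => f (x ∘ e)) = lin f := by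
  unfold lin
  rw [← Equiv.sum_comp e]
  refine Finset.sum_congr rfl fun i _ => ?_
  rw [← fhat_reindex e f {i}, Finset.map_singleton]; rfl

lemma E_reindex (e : ι ≃ κ) (f : (ι → ℤˣ) → ℝ) :
    E (fun x : κ → ℤˣ => f (x ∘ e)) = E f := by
  rw [← fhat_empty, ← fhat_empty, ← fhat_reindex e f ∅, Finset.map_empty]

lemma degLE_reindex (e : ι ≃ κ) {f : (ι → ℤˣ) → ℝ} {d : ℕ} (h : DegLE f d) :
    DegLE (fun x : κ → ℤˣ => f (x ∘ e)) d := by
  intro U hU
  have : U = (U.map e.symm.toEmbedding).map e.toEmbedding := by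
    rw [Finset.map_map]
    ext a; simp
  rw [this, fhat_reindex]
  exact h _ (by rwa [Finset.card_map])

end Vale.Agent.H7.P047
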