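import Mathlib

namespace Vale.Agent.H7.P047

open Finset

/-- The real number (`1` or `-1`) attached to a sign. -/
def sg (u : ℤˣ) : ℝ := ((u : ℤ) : ℝ)

/-- The Fourier coefficient `E[f(X) ∏_{i ∈ S} X_i]`, where `X` is uniform on `{-1,1}^ι`. -/
noncomputable def fhat {ι : Type} [Fintype ι] [DecidableEq ι] (f : (ι → ℤˣ) → ℝ)
    (S : Finset ι) : ℝ :=
  (∑ x : ι → ℤˣ, f x * ∏ i ∈ S, sg (x i)) / 2 ^ Fintype.card ι

/-- A function on the cube is Boolean if it takes values in `{-1,1}`. -/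
def IsBool {ι : Type} (f : (ι → ℤˣ) → ℝ) : Prop := ∀ x, f x = 1 ∨ f x = -1

open Classical in
/-- The degree: the largest `|S|` with nonzero Fourier coefficient. -/
noncomputable def deg {ι : Type} [Fintype ι] [DecidableEq ι] (f : (ι → ℤˣ) → ℝ) : ℕ :=
  (univ.filter fun S : Finset ι => fhat f S ≠ 0).sup card

/-- The sum of the degree-one Fourier coefficients. -/
noncomputable def lin {ι : Type} [Fintype ι] [DecidableEq ι] (f : (ι → ℤˣ) → ℝ) : ℝ :=
  ∑ i, fhat f {i}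

/-- `M(d)`: the supremum of `∑ i, fhat f {i}` over all `n ≥ 1` and all Boolean functions
on `{-1,1}^n` of degree at most `d`. -/
noncomputable def M (d : ℕ) : ℝ :=
  sSup {s : ℝ | ∃ n : ℕ, 1 ≤ n ∧ ∃ f : (Fin n → ℤˣ) → ℝ, IsBool f ∧ deg f ≤ d ∧ s = lin f}

end Vale.Agent.H7.P047
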