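import Vale.Agent.H7.P047.Sup

set_option linter.unusedSectionVars false

namespace Vale.Agent.H7.P047

open Finset

variable {ι : Type} [Fintype ι] [DecidableEq ι]

/-- the linear form `∑ X_i` -/
def Lf (x : ι → ℤˣ) : ℝ := ∑ i, sg (x i)

lemma Lf_sq (x : ι → ℤˣ) :
    Lf x ^ 2 = ∑ p : ι × ι, chi (symmDiff {p.1} {p.2}) x := by
  unfold Lf
  rw [pow_two, Finset.sum_mul_sum, Fintype.sum_prod_type]
  refine Finset.sum_congr rfl fun i _ => Finset.sum_congr rfl fun j _ => ?_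
  rw [← chi_mul, chi_single, chi_single]

lemma symmDiff_single_eq_empty {i j : ι} : symmDiff ({i} : Finset ι) {j} = ∅ ↔ i = j := by
  constructor
  · intro h
    have := symmDiff_eq_bot.mp h
    simpa using this
  · rintro rfl; simp

lemma E_Lf_sq : E (fun x : ι → ℤˣ => Lf x ^ 2) = Fintype.card ι := by
  simp only [Lf_sq]
  rw [E_sum, Fintype.sum_prod_type]
  simp only [E_chi, symmDiff_single_eq_empty]
  simp

lemma symmDiff_pair {a b c d : ι} (h : symmDiff ({a} : Finset ι) {b} = symmDiff {c} {d}) :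
    (a = b ∧ c = d) ∨ (a = c ∧ b = d) ∨ (a = d ∧ b = c) := by
  by_cases hab : a = b
  · subst hab
    left
    refine ⟨rfl, ?_⟩
    rw [symmDiff_self] at h
    exact symmDiff_single_eq_empty.mp h.symm
  · right
    have ha : a ∈ symmDiff ({c} : Finset ι) {d} := by
      rw [← h, Finset.mem_symmDiff]; left; simp [hab]
    have hb : b ∈ symmDiff ({c} : Finset ι) {d} := by
      rw [← h, Finset.mem_symmDiff]; right; simp [Ne.symm hab]
    simp only [Finset.mem_symmDiff, Finset.mem_singleton] at ha hb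
    rcases ha with ⟨h1, h2⟩ | ⟨h1, h2⟩ <;> rcases hb with ⟨h3, h4⟩ | ⟨h3, h4⟩
    · exact absurd (h1.trans h3.symm) hab
    · left; exact ⟨h1, h3⟩
    · right; exact ⟨h1, h3⟩
    · exact absurd (h1.trans h3.symm) hab

lemma E_Lf_four : E (fun x : ι → ℤˣ => Lf x ^ 4) ≤ 3 * (Fintype.card ι : ℝ) ^ 2 := by
  have h1 : (fun x : ι → ℤˣ => Lf x ^ 4) = fun x => ∑ p : ι × ι, ∑ q : ι × ι,
      chi (symmDiff {p.1} {p.2}) x * chi (symmDiff {q.1} {q.2}) x := by
    funext x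
    rw [show Lf x ^ 4 = Lf x ^ 2 * Lf x ^ 2 by ring, Lf_sq, Finset.sum_mul_sum]
  rw [h1, E_sum]
  have h2 : ∀ p q : ι × ι, E (fun x : ι → ℤˣ =>
      chi (symmDiff {p.1} {p.2}) x * chi (symmDiff {q.1} {q.2}) x)
      ≤ (if p.1 = p.2 ∧ q.1 = q.2 then 1 else 0) + (if p.1 = q.1 ∧ p.2 = q.2 then 1 else 0)
        + (if p.1 = q.2 ∧ p.2 = q.1 then 1 else 0) := by
    intro p q
    rw [E_chi_chi]
    have n1 : (0:ℝ) ≤ (if p.1 = p.2 ∧ q.1 = q.2 then 1 else 0) := by split_ifs <;> norm_num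
    have n2 : (0:ℝ) ≤ (if p.1 = q.1 ∧ p.2 = q.2 then 1 else 0) := by split_ifs <;> norm_num
    have n3 : (0:ℝ) ≤ (if p.1 = q.2 ∧ p.2 = q.1 then 1 else 0) := by split_ifs <;> norm_num
    by_cases h : symmDiff ({p.1} : Finset ι) {p.2} = symmDiff {q.1} {q.2}
    · rw [if_pos h]
      rcases symmDiff_pair h with h' | h' | h'
      · rw [if_pos h']; linarith
      · rw [if_pos h']; linarith
      · rw [if_pos h']; linarith
    · rw [if_neg h]; linarith
  calc ∑ p : ι × ι, E (fun x : ι → ℤˣ => ∑ q : ι × ι,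
        chi (symmDiff {p.1} {p.2}) x * chi (symmDiff {q.1} {q.2}) x)
      = ∑ p : ι × ι, ∑ q : ι × ι, E (fun x : ι → ℤˣ =>
          chi (symmDiff {p.1} {p.2}) x * chi (symmDiff {q.1} {q.2}) x) :=
        Finset.sum_congr rfl fun p _ => E_sum _ _
    _ ≤ ∑ p : ι × ι, ∑ q : ι × ι, ((if p.1 = p.2 ∧ q.1 = q.2 then 1 else 0)
        + (if p.1 = q.1 ∧ p.2 = q.2 then 1 else 0)
        + (if p.1 = q.2 ∧ p.2 = q.1 then 1 else 0)) :=
        Finset.sum_le_sum fun p _ => Finset.sum_le_sum fun q _ => h2 p q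
    _ = 3 * (Fintype.card ι : ℝ) ^ 2 := by
        simp only [Finset.sum_add_distrib, Fintype.sum_prod_type, ite_and]
        simp
        ring

/-- the pointwise inequality behind Khinchine -/
lemma abs_ge (t s : ℝ) (hs : 0 < s) : 3 / (2 * s) * t ^ 2 - 1 / (2 * s ^ 3) * t ^ 4 ≤ |t| := by
  have h : |t| - (3 / (2 * s) * t ^ 2 - 1 / (2 * s ^ 3) * t ^ 4)
      = s * ((|t| / s) * ((|t| / s - 1) ^ 2 * (|t| / s + 2)) / 2) := by
    have h2 : t ^ 2 = |t| ^ 2 := (sq_abs t).symm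
    have h4 : t ^ 4 = |t| ^ 4 := by
      rw [show t ^ 4 = (t ^ 2) ^ 2 by ring, h2]; ring
    rw [h2, h4]
    field_simp
    ring
  have : 0 ≤ s * ((|t| / s) * ((|t| / s - 1) ^ 2 * (|t| / s + 2)) / 2) := by positivity
  linarith

/-- majority with ties to `1` -/
noncomputable def maj : (ι → ℤˣ) → ℝ := fun x => if 0 ≤ Lf x then 1 else -1

lemma isBool_maj : IsBool (maj : (ι → ℤˣ) → ℝ) := by
  intro x; unfold maj; split_ifs <;> simp

lemma maj_mul (x : ι → ℤˣ) : maj x * Lf x = |Lf x| := by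
  unfold maj
  split_ifs with h
  · rw [one_mul, abs_of_nonneg h]
  · rw [abs_of_neg (not_le.mp h)]; ring

lemma lin_eq (f : (ι → ℤˣ) → ℝ) : lin f = E (fun x => f x * Lf x) := by
  unfold lin Lf
  simp only [fhat_eq, Finset.mul_sum]
  rw [E_sum]
  refine Finset.sum_congr rfl fun i _ => ?_
  congr 1; funext x; rw [chi_single]

lemma degLE_card (f : (ι → ℤˣ) → ℝ) : DegLE f (Fintype.card ι) := by
  intro S hS
  exact absurd (Finset.card_le_univ S) (not_le.mpr hS)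

lemma sqrt_le_M {d : ℕ} (hd : 1 ≤ d) : √((d:ℝ) / 3) ≤ M d := by
  have hd0 : (0:ℝ) < d := by exact_mod_cast hd
  have : Nonempty (Fin d) := ⟨⟨0, hd⟩⟩
  have h1 : lin (maj : (Fin d → ℤˣ) → ℝ) ≤ M d :=
    lin_le_M isBool_maj (by simpa using degLE_card (maj : (Fin d → ℤˣ) → ℝ))
  refine le_trans ?_ h1
  rw [lin_eq]
  simp only [maj_mul]
  set s : ℝ := √(3 * d) with hs
  have hs0 : 0 < s := Real.sqrt_pos.mpr (by positivity)
  have hs2 : s ^ 2 = 3 * d := Real.sq_sqrt (by positivity)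
  have h2 : E (fun x : Fin d → ℤˣ => 3 / (2 * s) * Lf x ^ 2 + (-(1 / (2 * s ^ 3))) * Lf x ^ 4)
      ≤ E (fun x : Fin d → ℤˣ => |Lf x|) :=
    E_mono fun x => by have := abs_ge (Lf x) s hs0; linarith
  rw [E_add, E_smul, E_smul, E_Lf_sq] at h2
  have h4 := E_Lf_four (ι := Fin d)
  rw [Fintype.card_fin] at h2 h4
  refine le_trans ?_ h2
  have h5 : -(1 / (2 * s ^ 3)) * (3 * (d:ℝ) ^ 2)
      ≤ -(1 / (2 * s ^ 3)) * E (fun x : Fin d → ℤˣ => Lf x ^ 4) := by
    apply mul_le_mul_of_nonpos_left h4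
    have : 0 < 1 / (2 * s ^ 3) := by positivity
    linarith
  refine le_trans ?_ (add_le_add_right h5 _)
  have h6 : √((d:ℝ) / 3) = d / s := by
    rw [hs, Real.sqrt_div hd0.le, Real.sqrt_mul (by norm_num)]
    have h7 : √(d:ℝ) * √(d:ℝ) = d := Real.mul_self_sqrt hd0.le
    have h8 : √(d:ℝ) ≠ 0 := (Real.sqrt_pos.mpr hd0).ne'
    have h9 : √(3:ℝ) ≠ 0 := (Real.sqrt_pos.mpr (by norm_num)).ne'
    field_simp
    nlinarith
  rw [h6]
  have h10 : (d:ℝ) / s = 3 / (2 * s) * d + -(1 / (2 * s ^ 3)) * (3 * (d:ℝ) ^ 2) := by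
    field_simp
    nlinarith
  exact h10.le

end Vale.Agent.H7.P047
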