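import Vale.Agent.H7.P047.JuntaDefs
import Vale.Agent.H7.P047.Maj

set_option linter.unusedSectionVars false

namespace Vale.Agent.H7.P047

open Finset

variable {n : ℕ}

lemma cubeInd_eq (A : Finset (Fin n)) (a x : Fin n → ℤˣ) :
    cubeInd A a x = ∏ i, (if i ∈ A then (1 + sg (a i) * sg (x i)) / 2 else 1) := by
  unfold cubeInd
  rw [Finset.prod_ite_mem, Finset.univ_inter]
  split_ifs with h
  · rw [Finset.prod_congr rfl fun i hi => by rw [h i hi, sg_sq]]
    norm_num
  · push Not at h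
    obtain ⟨i, hi, hx⟩ := h
    symm
    refine Finset.prod_eq_zero hi ?_
    rcases Int.units_eq_one_or (x i) with h1 | h1 <;> rcases Int.units_eq_one_or (a i) with h2 | h2
    · exact absurd (h1.trans h2.symm) hx
    · simp [h1, h2, sg]
    · simp [h1, h2, sg]
    · exact absurd (h1.trans h2.symm) hx

/-- Fourier coefficients of a subcube -/
lemma E_cube_chi (A S : Finset (Fin n)) (a : Fin n → ℤˣ) :
    E (fun x => cubeInd A a x * chi S x)
      = if S ⊆ A then (1 / 2) ^ A.card * ∏ i ∈ S, sg (a i) else 0 := by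
  have h1 : (fun x => cubeInd A a x * chi S x) = fun x => ∏ i,
      ((if i ∈ A then (1 + sg (a i) * sg (x i)) / 2 else 1) * (if i ∈ S then sg (x i) else 1)) := by
    funext x
    rw [cubeInd_eq, chi_eq_prod, ← Finset.prod_mul_distrib]
  have h2 := E_prod_coord (fun (i : Fin n) (u : ℤˣ) =>
    (if i ∈ A then (1 + sg (a i) * sg u) / 2 else 1) * (if i ∈ S then sg u else 1))
  rw [h1]
  refine h2.trans ?_
  split_ifs with hSA
  · have h3 : (1 / 2 : ℝ) ^ A.card * ∏ i ∈ S, sg (a i)
        = ∏ i, ((if i ∈ A then (1 / 2 : ℝ) else 1) * (if i ∈ S then sg (a i) else 1)) := by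
      rw [Finset.prod_mul_distrib, Finset.prod_ite_mem, Finset.prod_ite_mem]
      simp
    rw [h3]
    refine Finset.prod_congr rfl fun i _ => ?_
    by_cases hA : i ∈ A
    · by_cases hS : i ∈ S
      · simp only [hA, hS, if_true, sg_one, sg_neg_one]; ring
      · simp only [hA, hS, if_true, if_false, sg_one, sg_neg_one]; ring
    · have hS : i ∉ S := fun h => hA (hSA h)
      simp only [hA, hS, if_false]; norm_num
  · obtain ⟨i, hiS, hiA⟩ := Finset.not_subset.mp hSA
    refine Finset.prod_eq_zero (Finset.mem_univ i) ?_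
    simp [hiS, hiA, sg_one, sg_neg_one]

lemma E_cube (A : Finset (Fin n)) (a : Fin n → ℤˣ) : E (cubeInd A a) = (1 / 2) ^ A.card := by
  have h := E_cube_chi A ∅ a
  simp only [chi_empty, mul_one, Finset.empty_subset, if_true, Finset.prod_empty] at h
  exact h

/-- the sum of the signs of a subcube -/
def ssum (A : Finset (Fin n)) (a : Fin n → ℤˣ) : ℝ := ∑ i ∈ A, sg (a i)

lemma E_cube_Lf (A : Finset (Fin n)) (a : Fin n → ℤˣ) :
    E (fun x => cubeInd A a x * Lf x) = (1 / 2) ^ A.card * ssum A a := by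
  unfold Lf ssum
  simp only [Finset.mul_sum]
  rw [E_sum]
  have h : ∀ i, E (fun x => cubeInd A a x * sg (x i))
      = if i ∈ A then (1 / 2) ^ A.card * sg (a i) else 0 := by
    intro i
    have := E_cube_chi A {i} a
    simp only [chi_single, Finset.singleton_subset_iff, Finset.prod_singleton] at this
    exact this
  rw [Finset.sum_congr rfl fun i _ => h i, Finset.sum_ite_mem, Finset.univ_inter]

lemma E_cube_Lf_sq (A : Finset (Fin n)) (a : Fin n → ℤˣ) :
    E (fun x => cubeInd A a x * Lf x ^ 2)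
      = (1 / 2) ^ A.card * (ssum A a ^ 2 + (n - A.card)) := by
  simp only [Lf_sq, Finset.mul_sum]
  rw [E_sum, Fintype.sum_prod_type]
  have h : ∀ i j : Fin n, E (fun x => cubeInd A a x * chi (symmDiff {i} {j}) x)
      = (1 / 2) ^ A.card * ((if i ∈ A then sg (a i) else 0) * (if j ∈ A then sg (a j) else 0)
        + if i = j ∧ i ∉ A then 1 else 0) := by
    intro i j
    rw [E_cube_chi]
    by_cases hij : i = j
    · subst hij
      simp only [symmDiff_self, Finset.bot_eq_empty, Finset.empty_subset, if_true,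
        Finset.prod_empty, true_and]
      by_cases hi : i ∈ A
      · simp [hi, sg_sq]
      · simp [hi]
    · have hs : symmDiff ({i} : Finset (Fin n)) {j} = {i, j} := by
        ext k
        simp only [Finset.mem_symmDiff, Finset.mem_singleton, Finset.mem_insert]
        constructor
        · rintro (⟨h, _⟩ | ⟨h, _⟩)
          · exact Or.inl h
          · exact Or.inr h
        · rintro (h | h)
          · left; exact ⟨h, fun h' => hij (h.symm.trans h')⟩
          · right; exact ⟨h, fun h' => hij (h'.symm.trans h)⟩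
      rw [hs, Finset.prod_pair hij]
      simp only [Finset.insert_subset_iff, Finset.singleton_subset_iff, hij, false_and, if_false,
        add_zero]
      by_cases hi : i ∈ A <;> by_cases hj : j ∈ A <;> simp [hi, hj]
  rw [Finset.sum_congr rfl fun i _ => Finset.sum_congr rfl fun j _ => h i j]
  simp only [← Finset.mul_sum, Finset.sum_add_distrib]
  congr 1
  have h1 : ∑ i : Fin n, ∑ j : Fin n, (if i ∈ A then sg (a i) else 0) *
      (if j ∈ A then sg (a j) else 0) = ssum A a ^ 2 := by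
    rw [pow_two]
    unfold ssum
    rw [← Finset.sum_mul_sum]
    simp [Finset.sum_ite_mem]
  have h2 : ∑ i : Fin n, ∑ j : Fin n, (if i = j ∧ i ∉ A then (1:ℝ) else 0) = n - A.card := by
    have h3 : ∀ i : Fin n, ∑ j : Fin n, (if i = j ∧ i ∉ A then (1:ℝ) else 0)
        = 1 - if i ∈ A then 1 else 0 := by
      intro i
      by_cases hi : i ∈ A <;> simp [hi]
    rw [Finset.sum_congr rfl fun i _ => h3 i, Finset.sum_sub_distrib]
    simp
  have h4 : ∀ i : Fin n, ∑ j : Fin n, (if i ∈ A then sg (a i) else 0) *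
      (if j ∈ A then sg (a j) else 0) = (if i ∈ A then sg (a i) else 0) *
      ∑ j : Fin n, (if j ∈ A then sg (a j) else 0) := fun i => by rw [Finset.mul_sum]
  simp only [← h2, ← h1, h4]

/-- **Fractional subcube partitions.** -/
theorem lin_le_sqrt_avg {f : (Fin n → ℤˣ) → ℝ} {J : Type} [Fintype J] (w b : J → ℝ)
    (A : J → Finset (Fin n)) (a : J → Fin n → ℤˣ) (hw : ∀ j, 0 ≤ w j)
    (hb : ∀ j, b j = 1 ∨ b j = -1)
    (h1 : ∀ x, ∑ j, w j * cubeInd (A j) (a j) x = 1)
    (hf : ∀ x, f x = ∑ j, w j * b j * cubeInd (A j) (a j) x) :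
    lin f ≤ √(∑ j, w j * (1 / 2) ^ (A j).card * (A j).card) := by
  set p : J → ℝ := fun j => w j * (1 / 2) ^ (A j).card with hp
  have hp0 : ∀ j, 0 ≤ p j := fun j => mul_nonneg (hw j) (by positivity)
  have hsum1 : ∑ j, p j = 1 := by
    have : E (fun x : Fin n → ℤˣ => ∑ j, w j * cubeInd (A j) (a j) x) = 1 := by
      rw [show (fun x : Fin n → ℤˣ => ∑ j, w j * cubeInd (A j) (a j) x) = fun _ => (1:ℝ) from
        funext h1, E_const]
    rw [E_sum] at this
    rw [← this]
    refine Finset.sum_congr rfl fun j _ => ?_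
    rw [E_smul, E_cube]
  have hlin : lin f = ∑ j, p j * b j * ssum (A j) (a j) := by
    rw [lin_eq]
    have : (fun x => f x * Lf x)
        = fun x => ∑ j, (w j * b j) * (cubeInd (A j) (a j) x * Lf x) := by
      funext x; rw [hf x, Finset.sum_mul]
      exact Finset.sum_congr rfl fun j _ => by ring
    rw [this, E_sum]
    refine Finset.sum_congr rfl fun j _ => ?_
    rw [E_smul, E_cube_Lf, hp]; ring
  have hsq : ∑ j, p j * ssum (A j) (a j) ^ 2 = ∑ j, p j * (A j).card := by
    have h2 : E (fun x : Fin n → ℤˣ => Lf x ^ 2)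
        = ∑ j, p j * (ssum (A j) (a j) ^ 2 + (n - (A j).card)) := by
      have : (fun x : Fin n → ℤˣ => Lf x ^ 2)
          = fun x => ∑ j, w j * (cubeInd (A j) (a j) x * Lf x ^ 2) := by
        funext x
        rw [← one_mul (Lf x ^ 2)]
        conv_lhs => rw [← h1 x]
        rw [Finset.sum_mul]
        exact Finset.sum_congr rfl fun j _ => by ring
      rw [this, E_sum]
      refine Finset.sum_congr rfl fun j _ => ?_
      rw [E_smul, E_cube_Lf_sq, hp]; ring
    rw [E_Lf_sq, Fintype.card_fin] at h2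
    have h3 : ∑ j, p j * (ssum (A j) (a j) ^ 2 + ((n:ℝ) - (A j).card))
        = ∑ j, p j * ssum (A j) (a j) ^ 2 + n * ∑ j, p j - ∑ j, p j * (A j).card := by
      rw [Finset.mul_sum, ← Finset.sum_add_distrib, ← Finset.sum_sub_distrib]
      exact Finset.sum_congr rfl fun j _ => by ring
    rw [h3, hsum1] at h2
    linarith
  have hrhs : ∑ j, w j * (1 / 2) ^ (A j).card * ((A j).card : ℝ) = ∑ j, p j * (A j).card := rfl
  rw [hrhs, ← hsq]
  refine Real.le_sqrt_of_sq_le ?_
  rw [hlin]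
  have hcs := Finset.sum_mul_sq_le_sq_mul_sq Finset.univ (fun j => √(p j))
    (fun j => √(p j) * (b j * ssum (A j) (a j)))
  have e1 : ∑ j, √(p j) * (√(p j) * (b j * ssum (A j) (a j)))
      = ∑ j, p j * b j * ssum (A j) (a j) := by
    refine Finset.sum_congr rfl fun j _ => ?_
    rw [← mul_assoc, Real.mul_self_sqrt (hp0 j)]; ring
  have e2 : ∑ j, √(p j) ^ 2 = 1 := by
    rw [← hsum1]
    exact Finset.sum_congr rfl fun j _ => Real.sq_sqrt (hp0 j)
  have e3 : ∑ j, (√(p j) * (b j * ssum (A j) (a j))) ^ 2 = ∑ j, p j * ssum (A j) (a j) ^ 2 := by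
    refine Finset.sum_congr rfl fun j _ => ?_
    rw [mul_pow, Real.sq_sqrt (hp0 j), mul_pow]
    rcases hb j with h | h <;> rw [h] <;> ring
  rw [e1, e2, e3, one_mul] at hcs
  exact hcs

/-! ### One-sided conical juntas -/

lemma exp_le_one_add {u : ℝ} (h1 : -(1 / 2) ≤ u) (h2 : u ≤ 1 / 2) :
    Real.exp (u - u ^ 2) ≤ 1 + u := by
  rcases le_total 0 u with hu | hu
  · -- exp y ≤ 1/(1-y)
    have hy : 0 < 1 - (u - u ^ 2) := by nlinarith
    have h3 : 1 - (u - u ^ 2) ≤ Real.exp (-(u - u ^ 2)) := by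
      have := Real.add_one_le_exp (-(u - u ^ 2)); linarith
    have h4 : Real.exp (u - u ^ 2) = (Real.exp (-(u - u ^ 2)))⁻¹ := by
      rw [← Real.exp_neg]; congr 1; ring
    rw [h4]
    refine (inv_anti₀ hy h3).trans ?_
    rw [inv_le_comm₀ hy (by linarith)]
    rw [inv_le_iff_one_le_mul₀ (by linarith)]
    have : 0 ≤ u ^ 3 := by positivity
    nlinarith
  · -- u = -δ
    obtain ⟨e, he, rfl⟩ : ∃ e : ℝ, 0 ≤ e ∧ u = -e := ⟨-u, by linarith, by ring⟩
    have he2 : e ≤ 1 / 2 := by linarith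
    have ht : 0 ≤ e + e ^ 2 := by positivity
    have h3 := Real.quadratic_le_exp_of_nonneg ht
    have h4 : Real.exp (-e - (-e) ^ 2) = (Real.exp (e + e ^ 2))⁻¹ := by
      rw [← Real.exp_neg]; congr 1; ring
    rw [h4]
    have hpos : 0 < 1 + (e + e ^ 2) + (e + e ^ 2) ^ 2 / 2 := by positivity
    refine (inv_anti₀ hpos h3).trans ?_
    rw [inv_le_iff_one_le_mul₀ hpos]
    have : 0 ≤ e ^ 2 * ((1 / 2 - e) * (1 + e)) := by
      have : 0 ≤ 1 / 2 - e := by linarith
      positivity
    nlinarith [pow_nonneg he 3, pow_nonneg he 4, pow_nonneg he 5]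

lemma prod_ge (A : Finset (Fin n)) (a : Fin n → ℤˣ) {t : ℝ} (h1 : -(1 / 2) ≤ t) (h2 : t ≤ 1 / 2) :
    1 + t * ssum A a - A.card * t ^ 2 ≤ ∏ i ∈ A, (1 + t * sg (a i)) := by
  have h3 : Real.exp (t * ssum A a - A.card * t ^ 2) ≤ ∏ i ∈ A, (1 + t * sg (a i)) := by
    have h4 : t * ssum A a - A.card * t ^ 2 = ∑ i ∈ A, (t * sg (a i) - (t * sg (a i)) ^ 2) := by
      unfold ssum
      rw [Finset.mul_sum, Finset.sum_sub_distrib]
      congr 1
      rw [Finset.sum_congr rfl fun i _ => by rw [mul_pow, pow_two (sg (a i)), sg_sq, mul_one],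
        Finset.sum_const, nsmul_eq_mul]
    rw [h4, Real.exp_sum]
    refine Finset.prod_le_prod (fun i _ => (Real.exp_pos _).le) fun i _ => ?_
    refine exp_le_one_add ?_ ?_ <;> rcases sg_cases (a i) with h | h <;> rw [h] <;> linarith
  have := Real.add_one_le_exp (t * ssum A a - A.card * t ^ 2)
  linarith

/-- expectation under the product measure of bias `t` -/
noncomputable def Et (t : ℝ) (g : (Fin n → ℤˣ) → ℝ) : ℝ :=
  E (fun x => g x * ∏ i, (1 + t * sg (x i)))

lemma Et_cube (t : ℝ) (A : Finset (Fin n)) (a : Fin n → ℤˣ) :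
    Et t (cubeInd A a) = (1 / 2) ^ A.card * ∏ i ∈ A, (1 + t * sg (a i)) := by
  unfold Et
  have h1 : (fun x => cubeInd A a x * ∏ i, (1 + t * sg (x i))) = fun x => ∏ i,
      ((if i ∈ A then (1 + sg (a i) * sg (x i)) / 2 else 1) * (1 + t * sg (x i))) := by
    funext x
    rw [cubeInd_eq, ← Finset.prod_mul_distrib]
  have h2 := E_prod_coord (fun (i : Fin n) (u : ℤˣ) =>
    (if i ∈ A then (1 + sg (a i) * sg u) / 2 else 1) * (1 + t * sg u))
  rw [h1]
  refine h2.trans ?_
  have h3 : (1 / 2 : ℝ) ^ A.card * ∏ i ∈ A, (1 + t * sg (a i))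
      = ∏ i, (if i ∈ A then (1 / 2 : ℝ) * (1 + t * sg (a i)) else 1) := by
    rw [Finset.prod_ite_mem, Finset.univ_inter, Finset.prod_mul_distrib, Finset.prod_const]
  rw [h3]
  refine Finset.prod_congr rfl fun i _ => ?_
  by_cases hA : i ∈ A
  · simp only [hA, if_true, sg_one, sg_neg_one]
    ring
  · simp only [hA, if_false, sg_one, sg_neg_one]; ring

lemma Et_le_one {g : (Fin n → ℤˣ) → ℝ} {t : ℝ} (h1 : -1 ≤ t) (h2 : t ≤ 1) (hg : ∀ x, g x ≤ 1) :
    Et t g ≤ 1 := by
  have h3 : Et t g ≤ E (fun x : Fin n → ℤˣ => ∏ i, (1 + t * sg (x i))) := by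
    refine E_mono fun x => ?_
    have : 0 ≤ ∏ i, (1 + t * sg (x i)) := Finset.prod_nonneg fun i _ => by
      rcases sg_cases (x i) with h | h <;> rw [h] <;> linarith
    nlinarith [hg x]
  refine h3.trans (le_of_eq ?_)
  refine (E_prod_coord (fun (_ : Fin n) (u : ℤˣ) => 1 + t * sg u)).trans ?_
  refine Finset.prod_eq_one fun i _ => ?_
  simp only [sg_one, sg_neg_one]; ring

/-- the main one-sided estimate -/
lemma conical_main {k m : ℕ} {g : (Fin n → ℤˣ) → ℝ} (hg : ∀ x, g x ≤ 1) (w : Fin m → ℝ)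
    (A : Fin m → Finset (Fin n)) (a : Fin m → Fin n → ℤˣ) (hw : ∀ j, 0 ≤ w j)
    (hA : ∀ j, (A j).card ≤ k) (h : ∀ x, g x = ∑ j, w j * cubeInd (A j) (a j) x)
    {t : ℝ} (h1 : -(1 / 2) ≤ t) (h2 : t ≤ 1 / 2) :
    E g + t * lin g - k * t ^ 2 * E g ≤ 1 := by
  have hEt : Et t g = ∑ j, w j * ((1 / 2) ^ (A j).card * ∏ i ∈ A j, (1 + t * sg (a j i))) := by
    unfold Et
    have : (fun x => g x * ∏ i, (1 + t * sg (x i))) = fun x => ∑ j,
        w j * (cubeInd (A j) (a j) x * ∏ i, (1 + t * sg (x i))) := by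
      funext x; rw [h x, Finset.sum_mul]
      exact Finset.sum_congr rfl fun j _ => by ring
    rw [this, E_sum]
    refine Finset.sum_congr rfl fun j _ => ?_
    rw [E_smul]
    congr 1
    exact Et_cube t (A j) (a j)
  have hEg : E g = ∑ j, w j * (1 / 2) ^ (A j).card := by
    have : g = fun x => ∑ j, w j * cubeInd (A j) (a j) x := funext h
    rw [this, E_sum]
    refine Finset.sum_congr rfl fun j _ => ?_
    rw [E_smul, E_cube]
  have hlin : lin g = ∑ j, w j * ((1 / 2) ^ (A j).card * ssum (A j) (a j)) := by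
    rw [lin_eq]
    have : (fun x => g x * Lf x) = fun x => ∑ j, w j * (cubeInd (A j) (a j) x * Lf x) := by
      funext x; rw [h x, Finset.sum_mul]
      exact Finset.sum_congr rfl fun j _ => by ring
    rw [this, E_sum]
    refine Finset.sum_congr rfl fun j _ => ?_
    rw [E_smul, E_cube_Lf]
  have hle := Et_le_one (g := g) (t := t) (by linarith) (by linarith) hg
  refine le_trans ?_ hle
  rw [hEt, hEg, hlin, Finset.mul_sum, Finset.mul_sum, ← Finset.sum_add_distrib,
    ← Finset.sum_sub_distrib]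
  refine Finset.sum_le_sum fun j _ => ?_
  have h3 := prod_ge (A j) (a j) h1 h2
  have h4 : ((A j).card : ℝ) * t ^ 2 ≤ k * t ^ 2 :=
    mul_le_mul_of_nonneg_right (by exact_mod_cast hA j) (sq_nonneg t)
  have h5 : 0 ≤ w j * (1 / 2) ^ (A j).card := mul_nonneg (hw j) (by positivity)
  have h6 : w j * (1 / 2) ^ (A j).card * (1 + t * ssum (A j) (a j) - k * t ^ 2)
      ≤ w j * (1 / 2) ^ (A j).card * ∏ i ∈ A j, (1 + t * sg (a j i)) :=
    mul_le_mul_of_nonneg_left (by linarith) h5
  nlinarith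

lemma degLE_conical {k : ℕ} {g : (Fin n → ℤˣ) → ℝ} (h : IsConical k g) : DegLE g k := by
  obtain ⟨m, w, A, a, _, hA, hg⟩ := h
  have : g = fun x => ∑ j, w j * cubeInd (A j) (a j) x := funext hg
  rw [this]
  refine DegLE.sum fun j _ => DegLE.smul _ fun S hS => ?_
  rw [fhat_eq, E_cube_chi, if_neg]
  intro hSA
  have := Finset.card_le_card hSA
  have := hA j
  omega

lemma lin_affine (c e : ℝ) (f : (Fin n → ℤˣ) → ℝ) : lin (fun x => c + e * f x) = e * lin f := by
  unfold lin
  rw [Finset.mul_sum]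
  refine Finset.sum_congr rfl fun i _ => ?_
  rw [fhat_add (fun _ => c) (fun x => e * f x), fhat_smul,
    degLE_const c {i} (by simp), zero_add]

theorem conical_bound {f : (Fin n → ℤˣ) → ℝ} (hB : IsBool f) {k : ℕ}
    (h : IsConical k (fun x => (1 + f x) / 2) ∨ IsConical k (fun x => (1 - f x) / 2)) :
    DegLE f k ∧ lin f ≤ 2 * √(k : ℝ) := by
  have hdeg : DegLE f k := by
    rcases h with h | h
    · have h1 := degLE_conical h
      have h2 : f = fun x => (-1) + 2 * ((fun x => (1 + f x) / 2) x) := by funext x; simp; ring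
      rw [h2]
      exact ((degLE_const (-1)).mono (Nat.zero_le k)).add (h1.smul 2)
    · have h1 := degLE_conical h
      have h2 : f = fun x => 1 + (-2) * ((fun x => (1 - f x) / 2) x) := by funext x; simp; ring
      rw [h2]
      exact ((degLE_const 1).mono (Nat.zero_le k)).add (h1.smul (-2))
  refine ⟨hdeg, ?_⟩
  rcases Nat.lt_or_ge k 4 with hk | hk
  · refine (lin_le_of_degLE hB hdeg).trans ?_
    have hk0 : (0:ℝ) ≤ k := Nat.cast_nonneg k
    have hk4 : (k:ℝ) ≤ 4 := by exact_mod_cast hk.le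
    have h1 : √(k:ℝ) ≤ 2 := by
      rw [show (2:ℝ) = √4 by rw [show (4:ℝ) = 2 ^ 2 by norm_num, Real.sqrt_sq (by norm_num)]]
      exact Real.sqrt_le_sqrt hk4
    have h2 := Real.mul_self_sqrt hk0
    have h3 := Real.sqrt_nonneg (k:ℝ)
    nlinarith
  · have hk0 : (0:ℝ) < k := by exact_mod_cast (by omega : 0 < k)
    have hs2 : 2 ≤ √(k:ℝ) := by
      rw [show (2:ℝ) = √4 by rw [show (4:ℝ) = 2 ^ 2 by norm_num, Real.sqrt_sq (by norm_num)]]
      exact Real.sqrt_le_sqrt (by exact_mod_cast hk)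
    have hs0 : 0 < √(k:ℝ) := by linarith
    have hsq : √(k:ℝ) * √(k:ℝ) = k := Real.mul_self_sqrt hk0.le
    have ht : 1 / √(k:ℝ) ≤ 1 / 2 := one_div_le_one_div_of_le (by norm_num) hs2
    have ht0 : 0 < 1 / √(k:ℝ) := by positivity
    have hkt : (k:ℝ) * (1 / √(k:ℝ)) ^ 2 = 1 := by
      rw [div_pow, one_pow, pow_two, hsq]; field_simp
    rcases h with h | h
    · obtain ⟨m, w, A, a, hw, hA, hg⟩ := h
      have h1 := conical_main (g := fun x => (1 + f x) / 2) (fun x => by
        rcases hB x with h | h <;> rw [h] <;> norm_num) w A a hw hA hg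
        (t := 1 / √(k:ℝ)) (by linarith) ht
      have h2 : lin (fun x => (1 + f x) / 2) = (1 / 2) * lin f := by
        rw [← lin_affine (1 / 2) (1 / 2) f]; congr 1; funext x; ring
      rw [h2, hkt] at h1
      have h3 : 1 / √(k:ℝ) * (1 / 2 * lin f) ≤ 1 := by linarith
      rw [one_div_mul_eq_div, div_le_one hs0] at h3
      linarith
    · obtain ⟨m, w, A, a, hw, hA, hg⟩ := h
      have h1 := conical_main (g := fun x => (1 - f x) / 2) (fun x => by
        rcases hB x with h | h <;> rw [h] <;> norm_num) w A a hw hA hg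
        (t := -(1 / √(k:ℝ))) (by linarith) (by linarith)
      have h2 : lin (fun x => (1 - f x) / 2) = (-(1 / 2)) * lin f := by
        rw [← lin_affine (1 / 2) (-(1 / 2)) f]; congr 1; funext x; ring
      rw [h2, neg_sq, hkt] at h1
      have h3 : 1 / √(k:ℝ) * (1 / 2 * lin f) ≤ 1 := by linarith
      rw [one_div_mul_eq_div, div_le_one hs0] at h3
      linarith

/-- both sides conical: the exact bound `√k`. -/
theorem conical_two_sided {f : (Fin n → ℤˣ) → ℝ} {k : ℕ}
    (h1 : IsConical k (fun x => (1 + f x) / 2)) (h2 : IsConical k (fun x => (1 - f x) / 2)) :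
    lin f ≤ √(k : ℝ) := by
  obtain ⟨m, w, A, a, hw, hA, hg⟩ := h1
  obtain ⟨m', w', A', a', hw', hA', hg'⟩ := h2
  simp only at hg hg'
  have key := lin_le_sqrt_avg (f := f) (J := Fin m ⊕ Fin m') (Sum.elim w w')
    (Sum.elim (fun _ => 1) (fun _ => -1)) (Sum.elim A A') (Sum.elim a a')
    (by rintro (j | j) <;> simp [hw, hw'])
    (by rintro (j | j) <;> simp)
    (by intro x
        simp only [Fintype.sum_sum_type, Sum.elim_inl, Sum.elim_inr]
        rw [← hg x, ← hg' x]; ring)
    (by intro x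
        simp only [Fintype.sum_sum_type, Sum.elim_inl, Sum.elim_inr, mul_one]
        have e : ∑ j, w' j * (-1) * cubeInd (A' j) (a' j) x
            = - ∑ j, w' j * cubeInd (A' j) (a' j) x := by
          rw [← Finset.sum_neg_distrib]
          exact Finset.sum_congr rfl fun j _ => by ring
        rw [e, ← hg x, ← hg' x]; ring)
  refine key.trans (Real.sqrt_le_sqrt ?_)
  have hsum1 : ∑ j, w j * (1 / 2 : ℝ) ^ (A j).card + ∑ j, w' j * (1 / 2 : ℝ) ^ (A' j).card = 1 := by
    have e : E (fun x : Fin n → ℤˣ => ∑ j, w j * cubeInd (A j) (a j) x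
        + ∑ j, w' j * cubeInd (A' j) (a' j) x) = 1 := by
      have : (fun x : Fin n → ℤˣ => ∑ j, w j * cubeInd (A j) (a j) x
        + ∑ j, w' j * cubeInd (A' j) (a' j) x) = fun _ => (1:ℝ) := by
        funext x
        rw [← hg x, ← hg' x]; ring
      rw [this, E_const]
    rw [E_add, E_sum, E_sum] at e
    refine Eq.trans ?_ e
    congr 1 <;> refine Finset.sum_congr rfl fun j _ => ?_ <;> rw [E_smul, E_cube]
  simp only [Fintype.sum_sum_type, Sum.elim_inl, Sum.elim_inr]
  have e1 : ∑ j, w j * (1 / 2 : ℝ) ^ (A j).card * (A j).card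
      ≤ (∑ j, w j * (1 / 2 : ℝ) ^ (A j).card) * k := by
    rw [Finset.sum_mul]
    refine Finset.sum_le_sum fun j _ => mul_le_mul_of_nonneg_left (by exact_mod_cast hA j) ?_
    exact mul_nonneg (hw j) (by positivity)
  have e2 : ∑ j, w' j * (1 / 2 : ℝ) ^ (A' j).card * (A' j).card
      ≤ (∑ j, w' j * (1 / 2 : ℝ) ^ (A' j).card) * k := by
    rw [Finset.sum_mul]
    refine Finset.sum_le_sum fun j _ => mul_le_mul_of_nonneg_left (by exact_mod_cast hA' j) ?_
    exact mul_nonneg (hw' j) (by positivity)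
  calc _ ≤ (∑ j, w j * (1 / 2 : ℝ) ^ (A j).card) * k
        + (∑ j, w' j * (1 / 2 : ℝ) ^ (A' j).card) * k := add_le_add e1 e2
    _ = (k:ℝ) := by rw [← add_mul, hsum1, one_mul]

end Vale.Agent.H7.P047
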