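import Vale.Agent.H7.P047.Defs

namespace Vale.Agent.H7.P047

open Finset

/-- The indicator of the subcube `{x : x_i = a_i for all i ∈ A}`, of codimension `|A|`. -/
noncomputable def cubeInd {n : ℕ} (A : Finset (Fin n)) (a : Fin n → ℤˣ) (x : Fin n → ℤˣ) : ℝ :=
  if ∀ i ∈ A, x i = a i then 1 else 0

/-- `g` is a conical junta of width at most `k`: a nonnegative combination of indicators
of subcubes of codimension at most `k`. -/
def IsConical {n : ℕ} (k : ℕ) (g : (Fin n → ℤˣ) → ℝ) : Prop :=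
  ∃ (m : ℕ) (w : Fin m → ℝ) (A : Fin m → Finset (Fin n)) (a : Fin m → Fin n → ℤˣ),
    (∀ j, 0 ≤ w j) ∧ (∀ j, (A j).card ≤ k) ∧ ∀ x, g x = ∑ j, w j * cubeInd (A j) (a j) x

end Vale.Agent.H7.P047
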