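import Vale.Agent.H7.P047.Comp

set_option linter.unusedSectionVars false

namespace Vale.Agent.H7.P047

open Finset

variable {ι κ : Type} [Fintype ι] [DecidableEq ι] [Fintype κ] [DecidableEq κ]

/-- balanced version of the set defining `M` -/
def balSet (d : ℕ) : Set ℝ :=
  {s : ℝ | ∃ n : ℕ, 1 ≤ n ∧ ∃ f : (Fin n → ℤˣ) → ℝ, IsBool f ∧ E f = 0 ∧ DegLE f d ∧ s = lin f}

noncomputable def bal (d : ℕ) : ℝ := sSup (balSet d)

def MSet (d : ℕ) : Set ℝ :=
  {s : ℝ | ∃ n : ℕ, 1 ≤ n ∧ ∃ f : (Fin n → ℤˣ) → ℝ, IsBool f ∧ deg f ≤ d ∧ s = lin f}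

lemma M_eq (d : ℕ) : M d = sSup (MSet d) := rfl

lemma bdd_MSet (d : ℕ) : BddAbove (MSet d) := by
  refine ⟨d, ?_⟩
  rintro s ⟨n, _, f, hB, hd, rfl⟩
  exact lin_le_of_degLE hB ((degLE_iff f d).mpr hd)

lemma balSet_subset (d : ℕ) : balSet d ⊆ MSet d := by
  rintro s ⟨n, hn, f, hB, _, hd, rfl⟩
  exact ⟨n, hn, f, hB, (degLE_iff f d).mp hd, rfl⟩

lemma bdd_balSet (d : ℕ) : BddAbove (balSet d) := (bdd_MSet d).mono (balSet_subset d)

lemma lin_le_M [Nonempty ι] {f : (ι → ℤˣ) → ℝ} {d : ℕ} (hB : IsBool f) (hd : DegLE f d) :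
    lin f ≤ M d := by
  rw [M_eq]
  refine le_csSup (bdd_MSet d) ⟨Fintype.card ι, Fintype.card_pos,
    fun x => f (x ∘ Fintype.equivFin ι), fun x => hB _, ?_, ?_⟩
  · exact (degLE_iff _ _).mp (degLE_reindex (Fintype.equivFin ι) hd)
  · exact (lin_reindex _ f).symm

lemma lin_le_bal [Nonempty ι] {f : (ι → ℤˣ) → ℝ} {d : ℕ} (hB : IsBool f) (h0 : E f = 0)
    (hd : DegLE f d) : lin f ≤ bal d := by
  refine le_csSup (bdd_balSet d) ⟨Fintype.card ι, Fintype.card_pos,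
    fun x => f (x ∘ Fintype.equivFin ι), fun x => hB _, ?_, ?_, ?_⟩
  · rw [E_reindex, h0]
  · exact degLE_reindex (Fintype.equivFin ι) hd
  · exact (lin_reindex _ f).symm

/-- the dictator -/
noncomputable def dict : (Fin 1 → ℤˣ) → ℝ := chi {0}

lemma isBool_dict : IsBool dict := by
  intro x
  unfold dict
  rw [chi_single]
  exact sg_cases _

lemma E_dict : E dict = 0 := by
  unfold dict
  rw [E_chi, if_neg (Finset.singleton_ne_empty _)]

lemma lin_dict : lin dict = 1 := by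
  unfold lin dict
  simp [fhat_chi]

lemma degLE_dict : DegLE dict 1 := by
  have := degLE_chi ({0} : Finset (Fin 1))
  rw [Finset.card_singleton] at this
  exact this

lemma mem_balSet_one {d : ℕ} (hd : 1 ≤ d) : (1 : ℝ) ∈ balSet d :=
  ⟨1, le_rfl, dict, isBool_dict, E_dict, degLE_dict.mono hd, lin_dict.symm⟩

lemma one_le_bal {d : ℕ} (hd : 1 ≤ d) : 1 ≤ bal d := le_csSup (bdd_balSet d) (mem_balSet_one hd)

lemma bal_le (d : ℕ) (hd : 1 ≤ d) : bal d ≤ d := by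
  refine csSup_le ⟨1, mem_balSet_one hd⟩ ?_
  rintro s ⟨n, _, f, hB, _, hd, rfl⟩
  exact lin_le_of_degLE hB hd

lemma bal_mono {a b : ℕ} (ha : 1 ≤ a) (h : a ≤ b) : bal a ≤ bal b := by
  refine csSup_le_csSup (bdd_balSet b) ⟨1, mem_balSet_one ha⟩ ?_
  rintro s ⟨n, hn, f, hB, h0, hd, rfl⟩
  exact ⟨n, hn, f, hB, h0, hd.mono h, rfl⟩

lemma bal_le_M {d : ℕ} (hd : 1 ≤ d) : bal d ≤ M d := by
  rw [M_eq]
  exact csSup_le_csSup (bdd_MSet d) ⟨1, mem_balSet_one hd⟩ (balSet_subset d)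

lemma M_le (d : ℕ) (hd : 1 ≤ d) : M d ≤ d := by
  rw [M_eq]
  refine csSup_le ⟨1, balSet_subset d (mem_balSet_one hd)⟩ ?_
  rintro s ⟨n, _, f, hB, hd, rfl⟩
  exact lin_le_of_degLE hB ((degLE_iff f d).mpr hd)

/-- one step of the iteration -/
lemma lin_mul_bal_le [Nonempty ι] {f : (ι → ℤˣ) → ℝ} {d D : ℕ} (hB : IsBool f) (hd : DegLE f d)
    (hs : 0 < lin f) (hD : 1 ≤ D) : lin f * bal D ≤ bal (d * D + 1) := by
  rw [mul_comm, ← le_div_iff₀ hs]
  refine csSup_le ⟨1, mem_balSet_one hD⟩ ?_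
  rintro t ⟨n, hn, F, hFB, hF0, hFd, rfl⟩
  rw [le_div_iff₀ hs]
  obtain ⟨h, h1, h2, h3, h4⟩ := exists_balanced (isBool_comp (F := F) hB) (degLE_comp hFB hd hFd)
  rw [lin_comp hFB hF0, mul_comm] at h4
  exact h4.trans (lin_le_bal h1 h2 h3)

lemma bal_mul_bal_le {a b : ℕ} (ha : 1 ≤ a) (hb : 1 ≤ b) : bal a * bal b ≤ bal (a * b) := by
  have hb0 : 0 < bal b := lt_of_lt_of_le one_pos (one_le_bal hb)
  have hab : 0 < bal (a * b) := lt_of_lt_of_le one_pos (one_le_bal (Nat.mul_pos ha hb))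
  rw [← le_div_iff₀ hb0]
  refine csSup_le ⟨1, mem_balSet_one ha⟩ ?_
  rintro s ⟨n, hn, f, hfB, hf0, hfd, rfl⟩
  rw [le_div_iff₀ hb0]
  rcases le_or_gt (lin f) 0 with hs | hs
  · exact (mul_nonpos_of_nonpos_of_nonneg hs hb0.le).trans hab.le
  rw [mul_comm, ← le_div_iff₀ hs]
  refine csSup_le ⟨1, mem_balSet_one hb⟩ ?_
  rintro t ⟨m, hm, F, hFB, hF0, hFd, rfl⟩
  rw [le_div_iff₀ hs]
  have : Nonempty (Fin n) := ⟨⟨0, hn⟩⟩
  have : Nonempty (Fin m) := ⟨⟨0, hm⟩⟩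
  have h1 := lin_comp (f := f) hFB hF0
  rw [mul_comm, ← h1]
  refine lin_le_bal (isBool_comp hfB) ?_ (degLE_comp hFB hfd hFd)
  -- the composition of balanced functions is balanced
  have h : comp f F = fun x => ∑ S : Finset (Fin n), fhat f S * ∏ i ∈ S, F (row i x) := by
    funext x; exact comp_expand hFB x
  rw [h, E_sum]
  refine Finset.sum_eq_zero fun S _ => ?_
  rw [E_smul]
  by_cases hS : S = ∅
  · subst hS; rw [fhat_empty, hf0, zero_mul]
  · obtain ⟨j, hj⟩ := Finset.nonempty_iff_ne_empty.mpr hS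
    have h2 : (fun x : Fin n × Fin m → ℤˣ => ∏ i ∈ S, F (row i x))
        = fun x => ∏ i, (if i ∈ S then F (row i x) else 1) := by
      funext x; simp [Finset.prod_ite_mem]
    have h3 := E_prod_row (fun (i : Fin n) (y : Fin m → ℤˣ) => if i ∈ S then F y else 1)
    rw [h2]
    have h4 : E (fun x : Fin n × Fin m → ℤˣ => ∏ i, (if i ∈ S then F (row i x) else 1)) = 0 := by
      refine h3.trans (Finset.prod_eq_zero (Finset.mem_univ j) ?_)
      simp only [hj, if_true]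
      exact hF0
    rw [h4, mul_zero]

lemma bal_pow_le {a : ℕ} (ha : 1 ≤ a) (k : ℕ) : bal a ^ k ≤ bal (a ^ k) := by
  induction k with
  | zero => simpa using one_le_bal le_rfl
  | succ k ih =>
    rw [pow_succ, pow_succ]
    have h0 : 0 ≤ bal a := zero_le_one.trans (one_le_bal ha)
    exact (mul_le_mul_of_nonneg_right ih h0).trans (bal_mul_bal_le (Nat.one_le_pow _ _ ha) ha)

/-- the degrees in the iteration -/
def Dseq (d : ℕ) : ℕ → ℕ
  | 0 => 1
  | j + 1 => d * Dseq d j + 1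

lemma one_le_Dseq (d j : ℕ) : 1 ≤ Dseq d j := by
  cases j <;> simp [Dseq]

lemma Dseq_le {d : ℕ} (hd : 1 ≤ d) (j : ℕ) : Dseq d j ≤ (j + 1) * d ^ j := by
  induction j with
  | zero => simp [Dseq]
  | succ j ih =>
    have h1 : 1 ≤ d ^ (j + 1) := Nat.one_le_pow _ _ hd
    have h2 : d * Dseq d j ≤ d * ((j + 1) * d ^ j) := Nat.mul_le_mul_left _ ih
    have h3 : d * ((j + 1) * d ^ j) = (j + 1) * d ^ (j + 1) := by ring
    have h4 : (j + 1 + 1) * d ^ (j + 1) = (j + 1) * d ^ (j + 1) + d ^ (j + 1) := by ring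
    simp only [Dseq]
    omega

lemma lin_pow_le [Nonempty ι] {f : (ι → ℤˣ) → ℝ} {d : ℕ} (hB : IsBool f) (hd : DegLE f d)
    (hs : 0 < lin f) (j : ℕ) : lin f ^ j ≤ bal (Dseq d j) := by
  induction j with
  | zero => simpa using one_le_bal (one_le_Dseq d 0)
  | succ j ih =>
    rw [pow_succ, mul_comm]
    exact (mul_le_mul_of_nonneg_left ih hs.le).trans (lin_mul_bal_le hB hd hs (one_le_Dseq d j))

/-! ### The exponent -/

/-- `log bal(d) / log d`, for `d ≥ 2` -/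
noncomputable def rat (m : ℕ) : ℝ := Real.log (bal (m + 2)) / Real.log ((m + 2 : ℕ) : ℝ)

noncomputable def al : ℝ := sSup (Set.range rat)

lemma log_pos_nat (m : ℕ) : 0 < Real.log ((m + 2 : ℕ) : ℝ) := by
  apply Real.log_pos
  push_cast
  have : (0:ℝ) ≤ m := Nat.cast_nonneg m
  linarith

lemma rat_nonneg (m : ℕ) : 0 ≤ rat m :=
  div_nonneg (Real.log_nonneg (one_le_bal (by omega))) (log_pos_nat m).le

lemma rat_le_one (m : ℕ) : rat m ≤ 1 := by
  unfold rat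
  rw [div_le_one (log_pos_nat m)]
  exact Real.log_le_log (lt_of_lt_of_le one_pos (one_le_bal (by omega))) (bal_le _ (by omega))

lemma bdd_rat : BddAbove (Set.range rat) := ⟨1, by rintro _ ⟨m, rfl⟩; exact rat_le_one m⟩

lemma rat_le_al (m : ℕ) : rat m ≤ al := le_csSup bdd_rat ⟨m, rfl⟩

lemma al_nonneg : 0 ≤ al := (rat_nonneg 0).trans (rat_le_al 0)

lemma al_le_one : al ≤ 1 := csSup_le ⟨_, 0, rfl⟩ (by rintro _ ⟨m, rfl⟩; exact rat_le_one m)

lemma bal_le_rpow {D : ℕ} (hD : 1 ≤ D) : bal D ≤ (D : ℝ) ^ al := by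
  rcases Nat.lt_or_ge D 2 with h | h
  · have : D = 1 := by omega
    subst this
    simpa using bal_le 1 le_rfl
  · obtain ⟨m, rfl⟩ : ∃ m, D = m + 2 := ⟨D - 2, by omega⟩
    have h1 : Real.log (bal (m + 2)) ≤ al * Real.log ((m + 2 : ℕ) : ℝ) := by
      have := rat_le_al m
      unfold rat at this
      rwa [div_le_iff₀ (log_pos_nat m)] at this
    have hpos : 0 < bal (m + 2) := lt_of_lt_of_le one_pos (one_le_bal (by omega))
    have hD0 : (0:ℝ) < ((m + 2 : ℕ) : ℝ) := by positivity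
    rw [← Real.exp_log hpos, Real.rpow_def_of_pos hD0, mul_comm]
    exact Real.exp_le_exp.mpr h1

/-- exponential growth beats linear growth -/
lemma le_one_of_pow_le {r : ℝ} (h0 : 0 ≤ r) (h : ∀ j : ℕ, r ^ j ≤ j + 1) : r ≤ 1 := by
  by_contra hc
  push Not at hc
  obtain ⟨e, he, rfl⟩ : ∃ e : ℝ, 0 < e ∧ r = 1 + e := ⟨r - 1, by linarith, by ring⟩
  obtain ⟨j, hj⟩ := exists_nat_gt (2 / e ^ 2)
  have hj0 : (0:ℝ) ≤ j := Nat.cast_nonneg j
  have h1 : 1 + (j:ℝ) * e ≤ (1 + e) ^ j := one_add_mul_le_pow (by linarith) j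
  have h2 : (1 + (j:ℝ) * e) ^ 2 ≤ (1 + e) ^ (2 * j) := by
    rw [mul_comm 2 j, pow_mul]
    exact pow_le_pow_left₀ (by positivity) h1 2
  have h3 := h (2 * j)
  push_cast at h3
  have h4 : 2 < j * e ^ 2 := by
    rwa [div_lt_iff₀ (by positivity)] at hj
  have hj1 : (0:ℝ) < j := by
    rcases hj0.eq_or_lt with h | h
    · rw [← h] at h4; norm_num at h4
    · exact h
  nlinarith [mul_pos hj1 he, mul_pos hj1 hj1]

lemma lin_le_rpow [Nonempty ι] {f : (ι → ℤˣ) → ℝ} {d : ℕ} (hd1 : 1 ≤ d) (hB : IsBool f)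
    (hd : DegLE f d) : lin f ≤ (d : ℝ) ^ al := by
  have hd0 : (0:ℝ) < d := by exact_mod_cast hd1
  have hp : 0 < (d:ℝ) ^ al := Real.rpow_pos_of_pos hd0 _
  rcases le_or_gt (lin f) 0 with hs | hs
  · exact hs.trans hp.le
  have key : lin f / (d:ℝ) ^ al ≤ 1 := by
    refine le_one_of_pow_le (by positivity) fun j => ?_
    rw [div_pow, div_le_iff₀ (by positivity)]
    have h1 := lin_pow_le hB hd hs j
    have h2 := bal_le_rpow (one_le_Dseq d j)
    have h3 : ((Dseq d j : ℕ) : ℝ) ^ al ≤ (((j + 1) * d ^ j : ℕ) : ℝ) ^ al :=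
      Real.rpow_le_rpow (by positivity) (by exact_mod_cast Dseq_le hd1 j) al_nonneg
    have h4 : (((j + 1) * d ^ j : ℕ) : ℝ) ^ al = ((j:ℝ) + 1) ^ al * ((d:ℝ) ^ al) ^ j := by
      push_cast
      rw [Real.mul_rpow (by positivity) (by positivity), ← Real.rpow_natCast, ← Real.rpow_mul hd0.le,
        mul_comm (j:ℝ) al, Real.rpow_mul hd0.le, Real.rpow_natCast]
    have h5 : ((j:ℝ) + 1) ^ al ≤ (j:ℝ) + 1 := by
      have hj1 : (1:ℝ) ≤ (j:ℝ) + 1 := by
        have : (0:ℝ) ≤ j := Nat.cast_nonneg j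
        linarith
      calc ((j:ℝ) + 1) ^ al ≤ ((j:ℝ) + 1) ^ (1:ℝ) := Real.rpow_le_rpow_of_exponent_le hj1 al_le_one
        _ = (j:ℝ) + 1 := Real.rpow_one _
    calc lin f ^ j ≤ _ := h1.trans (h2.trans h3)
      _ = _ := h4
      _ ≤ _ := mul_le_mul_of_nonneg_right h5 (by positivity)
  rwa [div_le_one hp] at key

lemma M_le_rpow {d : ℕ} (hd : 1 ≤ d) : M d ≤ (d : ℝ) ^ al := by
  rw [M_eq]
  refine csSup_le ⟨1, balSet_subset d (mem_balSet_one hd)⟩ ?_
  rintro s ⟨n, hn, f, hB, hdf, rfl⟩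
  have : Nonempty (Fin n) := ⟨⟨0, hn⟩⟩
  exact lin_le_rpow hd hB ((degLE_iff f d).mpr hdf)

lemma one_le_M {d : ℕ} (hd : 1 ≤ d) : 1 ≤ M d := (one_le_bal hd).trans (bal_le_M hd)

open Filter Topology

/-- lower bound for the exponent along all large `d` -/
lemma log_M_ge (m D : ℕ) (hD : m + 2 ≤ D) :
    rat m - Real.log ((m + 2 : ℕ) : ℝ) / Real.log (D : ℝ) ≤ Real.log (M D) / Real.log (D : ℝ) := by
  set d := m + 2 with hd
  have hd2 : 2 ≤ d := by omega
  have hL : 0 < Real.log ((d : ℕ) : ℝ) := log_pos_nat m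
  have hD1 : 1 ≤ D := by omega
  have hDpos : (0:ℝ) < D := by exact_mod_cast hD1
  have hLD : 0 < Real.log (D : ℝ) := by
    apply Real.log_pos
    exact_mod_cast (by omega : 1 < D)
  set k := Nat.log d D with hk
  have h1 : d ^ k ≤ D := Nat.pow_log_le_self d (by omega)
  have h2 : D < d ^ (k + 1) := Nat.lt_pow_succ_log_self (by omega) D
  have h3 : bal d ^ k ≤ M D := by
    refine (bal_pow_le (by omega) k).trans ((bal_mono (Nat.one_le_pow _ _ (by omega)) h1).trans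
      (bal_le_M hD1))
  have hb1 : 1 ≤ bal d := one_le_bal (by omega)
  have h4 : (k:ℝ) * Real.log (bal d) ≤ Real.log (M D) := by
    rw [← Real.log_pow]
    exact Real.log_le_log (by positivity) h3
  have h5 : Real.log (D:ℝ) ≤ (k + 1) * Real.log (d:ℝ) := by
    have : (D:ℝ) ≤ (d:ℝ) ^ (k + 1) := by exact_mod_cast h2.le
    calc Real.log (D:ℝ) ≤ Real.log ((d:ℝ) ^ (k + 1)) := Real.log_le_log hDpos this
      _ = (k + 1) * Real.log (d:ℝ) := by rw [Real.log_pow]; push_cast; ring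
  have h6 : Real.log (bal d) = rat m * Real.log (d:ℝ) := by
    unfold rat
    rw [← hd, div_mul_cancel₀ _ hL.ne']
  have hr0 := rat_nonneg m
  have hr1 := rat_le_one m
  rw [le_div_iff₀ hLD, sub_mul, div_mul_cancel₀ _ hLD.ne']
  have h7 : rat m * Real.log (D:ℝ) ≤ rat m * ((k + 1) * Real.log (d:ℝ)) :=
    mul_le_mul_of_nonneg_left h5 hr0
  have h8 : rat m * Real.log (d:ℝ) ≤ Real.log (d:ℝ) := by nlinarith
  rw [h6] at h4
  nlinarith

theorem tendsto_log_M :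
    Tendsto (fun d : ℕ => Real.log (M d) / Real.log (d : ℝ)) atTop (𝓝 al) := by
  rw [Metric.tendsto_atTop]
  intro e he
  obtain ⟨_, ⟨m, rfl⟩, hm⟩ : ∃ r ∈ Set.range rat, al - e / 2 < r :=
    exists_lt_of_lt_csSup ⟨_, 0, rfl⟩ (by unfold al; linarith)
  have hlim : Tendsto (fun D : ℕ => Real.log ((m + 2 : ℕ) : ℝ) / Real.log (D : ℝ)) atTop (𝓝 0) :=
    (Real.tendsto_log_atTop.comp tendsto_natCast_atTop_atTop).const_div_atTop _
  obtain ⟨N, hN⟩ := (Metric.tendsto_atTop.mp hlim) (e / 2) (by linarith)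
  refine ⟨max N (m + 2), fun D hD => ?_⟩
  have hDN : N ≤ D := le_trans (le_max_left _ _) hD
  have hDm : m + 2 ≤ D := le_trans (le_max_right _ _) hD
  have h1 := hN D hDN
  rw [Real.dist_eq, sub_zero] at h1
  have h2 := log_M_ge m D hDm
  have h3 := (abs_lt.mp h1).2
  have hLD : 0 < Real.log (D : ℝ) := by
    apply Real.log_pos
    exact_mod_cast (by omega : 1 < D)
  have h4 : Real.log (M D) / Real.log (D : ℝ) ≤ al := by
    rw [div_le_iff₀ hLD]
    have h5 := M_le_rpow (show 1 ≤ D by omega)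
    have hM : 0 < M D := lt_of_lt_of_le one_pos (one_le_M (by omega))
    calc Real.log (M D) ≤ Real.log ((D:ℝ) ^ al) := Real.log_le_log hM h5
      _ = al * Real.log D := Real.log_rpow (by exact_mod_cast (by omega : 0 < D)) _
  rw [Real.dist_eq, abs_lt]
  constructor <;> linarith

end Vale.Agent.H7.P047
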